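import Vale.Agent.P036.SL

namespace Vale.Agent.P036

open Finset Vale.Agent.P047

lemma exists_E_le {Ω : Type*} [Fintype Ω] [Nonempty Ω] (X : Ω → ℝ) : ∃ x, E X ≤ X x := by
  obtain ⟨x, -, hx⟩ := exists_max_image univ X univ_nonempty
  refine ⟨x, ?_⟩
  have := E_mono (f := X) (g := fun _ => X x) fun y => hx y (mem_univ _)
  rwa [E_const] at this

lemma E_keep {Ω : Type*} [Fintype Ω] [DecidableEq Ω] (D : ℕ) [NeZero D] (S : Finset Ω) :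
    E (fun f : Ω → Fin D => ∏ a ∈ S, ind (f a = 0)) = (1 / (D : ℝ)) ^ S.card := by
  have h := E_pi (Ω := Fin D) (fun (a : Ω) (y : Fin D) => if a ∈ S then ind (y = 0) else 1)
  have e1 : ∀ f : Ω → Fin D, (∏ a, if a ∈ S then ind (f a = 0) else 1)
      = ∏ a ∈ S, ind (f a = 0) := fun f => by
    rw [← prod_filter]; congr 1; ext a; simp
  simp only [e1] at h
  rw [h]
  have e2 : ∀ a : Ω, E (fun y : Fin D => if a ∈ S then ind (y = 0) else 1)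
      = if a ∈ S then 1 / (D : ℝ) else 1 := fun a => by
    split_ifs
    · rw [E_ind, filter_eq' univ]; simp
    · exact E_const _
  simp only [e2]
  rw [← prod_filter, prod_const]
  congr 2; ext a; simp

lemma alter {Ω : Type*} [Fintype Ω] (V : Ω → Prop) (C2 : Ω → Ω → Prop)
    (C3 : Ω → Ω → Ω → Prop) (D : ℕ) (hD : 0 < D) (h2 : ∀ a b, C2 a b → a ≠ b)
    (h3 : ∀ a b c, C3 a b c → a ≠ b ∧ a ≠ c ∧ b ≠ c) :
    ∃ A : Finset Ω, (∀ a ∈ A, V a) ∧ (∀ a ∈ A, ∀ b ∈ A, ¬ C2 a b) ∧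
      (∀ a ∈ A, ∀ b ∈ A, ∀ c ∈ A, ¬ C3 a b c) ∧
      (∑ a, ind (V a)) / D - (∑ p : Ω × Ω, ind (V p.1 ∧ V p.2 ∧ C2 p.1 p.2)) / D ^ 2
        - (∑ p : Ω × Ω × Ω, ind (V p.1 ∧ V p.2.1 ∧ V p.2.2 ∧ C3 p.1 p.2.1 p.2.2)) / D ^ 3
        ≤ A.card := by
  classical
  haveI : NeZero D := ⟨hD.ne'⟩
  let X : (Ω → Fin D) → ℝ := fun f => (∑ a, ind (V a) * ind (f a = 0))
    - (∑ p : Ω × Ω, ind (V p.1 ∧ V p.2 ∧ C2 p.1 p.2) * (ind (f p.1 = 0) * ind (f p.2 = 0)))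
    - (∑ p : Ω × Ω × Ω, ind (V p.1 ∧ V p.2.1 ∧ V p.2.2 ∧ C3 p.1 p.2.1 p.2.2)
      * (ind (f p.1 = 0) * (ind (f p.2.1 = 0) * ind (f p.2.2 = 0))))
  have hX : E X = (∑ a, ind (V a)) / D - (∑ p : Ω × Ω, ind (V p.1 ∧ V p.2 ∧ C2 p.1 p.2)) / D ^ 2
      - (∑ p : Ω × Ω × Ω, ind (V p.1 ∧ V p.2.1 ∧ V p.2.2 ∧ C3 p.1 p.2.1 p.2.2)) / D ^ 3 := by
    rw [E_sub, E_sub, E_sum, E_sum, E_sum, sum_div, sum_div, sum_div]
    congr 1
    · congr 1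
      · refine sum_congr rfl fun a _ => ?_
        have := E_keep D {a}
        simp only [prod_singleton, card_singleton, pow_one] at this
        rw [E_cmul, this]; ring
      · refine sum_congr rfl fun p _ => ?_
        rw [E_cmul]
        by_cases h : V p.1 ∧ V p.2 ∧ C2 p.1 p.2
        · have hne := h2 _ _ h.2.2
          have := E_keep D {p.1, p.2}
          simp only [prod_pair hne, card_pair hne] at this
          rw [this]; ring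
        · rw [ind_neg h]; simp
    · refine sum_congr rfl fun p _ => ?_
      rw [E_cmul]
      by_cases h : V p.1 ∧ V p.2.1 ∧ V p.2.2 ∧ C3 p.1 p.2.1 p.2.2
      · obtain ⟨n1, n2, n3⟩ := h3 _ _ _ h.2.2.2
        have hm : p.1 ∉ ({p.2.1, p.2.2} : Finset Ω) := by simp [n1, n2]
        have := E_keep D {p.1, p.2.1, p.2.2}
        simp only [prod_insert hm, card_insert_of_notMem hm, prod_pair n3, card_pair n3] at this
        rw [this]; ring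
      · rw [ind_neg h]; simp
  obtain ⟨f, hf⟩ := exists_E_le X
  rw [hX] at hf
  set A0 := univ.filter fun a => V a ∧ f a = 0 with hA0
  set B2 := univ.filter fun p : Ω × Ω => (V p.1 ∧ V p.2 ∧ C2 p.1 p.2) ∧ f p.1 = 0 ∧ f p.2 = 0
    with hB2
  set B3 := univ.filter fun p : Ω × Ω × Ω => (V p.1 ∧ V p.2.1 ∧ V p.2.2 ∧ C3 p.1 p.2.1 p.2.2)
    ∧ f p.1 = 0 ∧ f p.2.1 = 0 ∧ f p.2.2 = 0 with hB3
  have hXf : X f = A0.card - B2.card - B3.card := by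
    simp only [X, ← ind_and, sum_ind, hA0, hB2, hB3]
  refine ⟨A0 \ (B2.image Prod.fst ∪ B3.image Prod.fst), ?_, ?_, ?_, ?_⟩
  · intro a ha
    exact (mem_filter.1 (mem_sdiff.1 ha).1).2.1
  · intro a ha b hb hc
    obtain ⟨a1, a2⟩ := mem_sdiff.1 ha
    have a3 := (mem_filter.1 a1).2
    have b3 := (mem_filter.1 (mem_sdiff.1 hb).1).2
    exact a2 (mem_union_left _ (mem_image.2 ⟨(a, b),
      mem_filter.2 ⟨mem_univ _, ⟨a3.1, b3.1, hc⟩, a3.2, b3.2⟩, rfl⟩))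
  · intro a ha b hb c hc hh
    obtain ⟨a1, a2⟩ := mem_sdiff.1 ha
    have a3 := (mem_filter.1 a1).2
    have b3 := (mem_filter.1 (mem_sdiff.1 hb).1).2
    have c3 := (mem_filter.1 (mem_sdiff.1 hc).1).2
    exact a2 (mem_union_right _ (mem_image.2 ⟨(a, b, c),
      mem_filter.2 ⟨mem_univ _, ⟨a3.1, b3.1, c3.1, hh⟩, a3.2, b3.2, c3.2⟩, rfl⟩))
  · refine hf.trans ?_
    rw [hXf]
    have a1 := le_card_sdiff (B2.image Prod.fst ∪ B3.image Prod.fst) A0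
    have a2 := card_union_le (B2.image Prod.fst) (B3.image Prod.fst)
    have a3 := card_image_le (s := B2) (f := Prod.fst)
    have a4 := card_image_le (s := B3) (f := Prod.fst)
    have : A0.card ≤ (A0 \ (B2.image Prod.fst ∪ B3.image Prod.fst)).card + B2.card + B3.card := by
      omega
    have : (A0.card : ℝ) ≤ (A0 \ (B2.image Prod.fst ∪ B3.image Prod.fst)).card + B2.card
      + B3.card := by exact_mod_cast this
    linarith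

lemma alter_avg {Θ Ω : Type*} [Fintype Θ] [Nonempty Θ] [Fintype Ω] (V : Θ → Ω → Prop)
    (C2 : Ω → Ω → Prop) (C3 : Ω → Ω → Ω → Prop) (D : ℕ) (hD : 0 < D)
    (h2 : ∀ a b, C2 a b → a ≠ b) (h3 : ∀ a b c, C3 a b c → a ≠ b ∧ a ≠ c ∧ b ≠ c)
    (e1 e2 e3 : ℝ) (H1 : e1 ≤ ∑ a, E fun θ => ind (V θ a))
    (H2 : ∑ p : Ω × Ω, E (fun θ => ind (V θ p.1 ∧ V θ p.2 ∧ C2 p.1 p.2)) ≤ e2)
    (H3 : ∑ p : Ω × Ω × Ω, E (fun θ =>
      ind (V θ p.1 ∧ V θ p.2.1 ∧ V θ p.2.2 ∧ C3 p.1 p.2.1 p.2.2)) ≤ e3) :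
    ∃ θ, ∃ A : Finset Ω, (∀ a ∈ A, V θ a) ∧ (∀ a ∈ A, ∀ b ∈ A, ¬ C2 a b) ∧
      (∀ a ∈ A, ∀ b ∈ A, ∀ c ∈ A, ¬ C3 a b c) ∧ e1 / D - e2 / D ^ 2 - e3 / D ^ 3 ≤ A.card := by
  obtain ⟨θ, hθ⟩ := exists_E_le fun θ => (∑ a, ind (V θ a)) * (1 / D)
    - (∑ p : Ω × Ω, ind (V θ p.1 ∧ V θ p.2 ∧ C2 p.1 p.2)) * (1 / D ^ 2)
    - (∑ p : Ω × Ω × Ω, ind (V θ p.1 ∧ V θ p.2.1 ∧ V θ p.2.2 ∧ C3 p.1 p.2.1 p.2.2)) * (1 / D ^ 3)
  obtain ⟨A, a1, a2, a3, a4⟩ := alter (V θ) C2 C3 D hD h2 h3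
  refine ⟨θ, A, a1, a2, a3, le_trans ?_ a4⟩
  rw [E_sub, E_sub, E_mulc, E_mulc, E_mulc, E_sum, E_sum, E_sum] at hθ
  simp only [mul_one_div] at hθ
  refine le_trans ?_ hθ
  have hDR : (0 : ℝ) < D := by exact_mod_cast hD
  have b1 := div_le_div_of_nonneg_right H1 hDR.le
  have b2 := div_le_div_of_nonneg_right H2 (pow_pos hDR 2).le
  have b3 := div_le_div_of_nonneg_right H3 (pow_pos hDR 3).le
  linarith

end Vale.Agent.P036
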