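import Vale.Agent.P036.SL

namespace Vale.Agent.P036

open Finset Vale.Agent.P047

variable {K : Type*} [Field K] [Fintype K] [DecidableEq K] {ι : Type*} [Fintype ι] [DecidableEq ι]

/-- four-dimensional target space -/
abbrev T4 (K : Type*) := K × K × K × K

/-- applying a random linear map, given by its columns -/
def app (L : ι → T4 K) (Φ : ι → K) : T4 K := ∑ j, Φ j • L j

/-- cone over an elliptic quadric -/
def cone (ν : K) (y : T4 K) : Prop := y.1 ≠ 0 ∧ y.1 * y.2.1 = y.2.2.1 ^ 2 - ν * y.2.2.2 ^ 2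

/-- density of the cone -/
noncomputable def mu (ν : K) : ℝ := E fun y : T4 K => ind (cone ν y)

/-- linear independence of two vectors -/
def Indep2 (Φ Ψ : ι → K) : Prop := ∀ α β : K, α • Φ + β • Ψ = 0 → α = 0 ∧ β = 0

lemma mu_eq (ν : K) : mu ν = (1 - 1 / Fintype.card K) * (1 / Fintype.card K) := by
  have hq := card_pos_F (F := K)
  have h1 : ∀ a : K, E (fun p : K × K × K => ind (cone ν (a, p)))
      = (1 - ind (a = 0)) * (1 / Fintype.card K) := by
    intro a
    by_cases h : a = 0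
    · rw [ind_pos h, E_congr (g := fun _ => 0) (fun p => ind_neg fun hc => hc.1 h), E_zero]
      simp
    · rw [ind_neg h, E_prod (fun (b : K) (r : K × K) => ind (cone ν (a, b, r))), E_comm]
      rw [E_congr (g := fun _ => 1 / (Fintype.card K : ℝ)), E_const]
      · simp
      intro r
      rw [E_congr (g := fun b => ind (b = (r.1 ^ 2 - ν * r.2 ^ 2) / a)), E_ind, filter_eq' univ]
      · simp
      · intro b
        apply ind_congr
        simp only [cone, ne_eq, h, not_false_eq_true, true_and]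
        rw [eq_div_iff h, mul_comm]
  rw [mu, E_prod (fun (a : K) (p : K × K × K) => ind (cone ν (a, p))), E_congr h1, E_mulc, E_sub,
    E_const, E_ind, filter_eq' univ]
  simp

lemma mu_le (ν : K) : mu ν ≤ 1 / Fintype.card K := by
  have hq := card_pos_F (F := K)
  rw [mu_eq]
  have : (0 : ℝ) ≤ 1 / Fintype.card K := by positivity
  nlinarith

lemma le_mu (ν : K) : 1 / (2 * Fintype.card K) ≤ mu ν := by
  have hq := card_pos_F (F := K)
  have hq2 : (2 : ℝ) ≤ Fintype.card K := by exact_mod_cast Fintype.one_lt_card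
  rw [mu_eq]
  have h1 : (1 : ℝ) / Fintype.card K ≤ 1 / 2 := one_div_le_one_div_of_le (by norm_num) hq2
  have h2 : (1 : ℝ) / (2 * Fintype.card K) = 1 / 2 * (1 / Fintype.card K) := by field_simp
  rw [h2]
  exact mul_le_mul_of_nonneg_right (by linarith) (by positivity)

lemma mu_pos (ν : K) : 0 < mu ν := by
  have hq := card_pos_F (F := K)
  exact lt_of_lt_of_le (by positivity) (le_mu ν)

lemma E_app {k : ℕ} (Φ : Fin k → ι → K) (hΦ : ∀ c : Fin k → K, ∑ i, c i • Φ i = 0 → c = 0)
    (f : (Fin k → T4 K) → ℝ) :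
    E (fun L : ι → T4 K => f fun i => app L (Φ i)) = E f := by
  let φ : (ι → T4 K) →+ (Fin k → T4 K) :=
    { toFun := fun L i => app L (Φ i)
      map_zero' := by funext i; simp [app]
      map_add' := fun a b => by funext i; simp [app, sum_add_distrib] }
  have hφ : Function.Surjective φ := fun Y => by
    have hinj : LinearMap.ker (Fintype.linearCombination K Φ) = ⊥ := by
      rw [LinearMap.ker_eq_bot']
      intro c hc
      exact hΦ c (by simpa [Fintype.linearCombination_apply] using hc)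
    obtain ⟨g, hg⟩ := LinearMap.exists_leftInverse_of_injective _ hinj
    refine ⟨fun j => (Fintype.linearCombination K Y).comp g (Pi.single j 1), ?_⟩
    funext i
    change app _ (Φ i) = Y i
    have h1 : app (fun j => (Fintype.linearCombination K Y).comp g (Pi.single j 1)) (Φ i)
        = (Fintype.linearCombination K Y).comp g (Φ i) := by
      rw [LinearMap.pi_apply_eq_sum_univ ((Fintype.linearCombination K Y).comp g) (Φ i), app]
      refine sum_congr rfl fun j _ => ?_
      congr 2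
      funext l
      simp [Pi.single_apply, eq_comm]
    have h2 : g (Φ i) = Pi.single i 1 := by
      have := LinearMap.congr_fun hg (Pi.single i 1)
      simpa [Fintype.linearCombination_apply_single] using this
    rw [h1, LinearMap.comp_apply, h2, Fintype.linearCombination_apply_single, one_smul]
  exact E_hom φ hφ f

lemma filter1 (ν : K) {Φ : ι → K} (h : Φ ≠ 0) :
    E (fun L : ι → T4 K => ind (cone ν (app L Φ))) = mu ν := by
  have := E_app (k := 1) ![Φ] (fun c hc => by
    funext i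
    fin_cases i
    simpa [h] using hc) (fun Y => ∏ i, ind (cone ν (Y i)))
  rw [E_pi (fun _ y => ind (cone ν y))] at this
  simpa [mu] using this

omit [Fintype K] [DecidableEq K] [Fintype ι] [DecidableEq ι] in
lemma Indep2.fin {Φ Ψ : ι → K} (h : Indep2 Φ Ψ) (c : Fin 2 → K)
    (hc : ∑ i, c i • (![Φ, Ψ] : Fin 2 → ι → K) i = 0) : c = 0 := by
  have := h (c 0) (c 1) (by simpa using hc)
  funext i
  fin_cases i
  · exact this.1
  · exact this.2

lemma filter2 (ν : K) {Φ Ψ : ι → K} (h : Indep2 Φ Ψ) :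
    E (fun L : ι → T4 K => ind (cone ν (app L Φ) ∧ cone ν (app L Ψ))) = mu ν ^ 2 := by
  have := E_app (k := 2) ![Φ, Ψ] h.fin (fun Y => ∏ i, ind (cone ν (Y i)))
  rw [E_pi (fun _ y => ind (cone ν y))] at this
  simpa [mu, ind_and] using this

omit [Fintype K] [DecidableEq K] in
lemma cap {ν : K} (hν : ¬ IsSquare ν) {y z : T4 K} (hy : cone ν y) (hz : cone ν z) {α β : K}
    (hα : α ≠ 0) (hβ : β ≠ 0) (h : cone ν (α • y + β • z)) :
    y.1 * z.2.2.1 = z.1 * y.2.2.1 ∧ y.1 * z.2.2.2 = z.1 * y.2.2.2 := by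
  obtain ⟨a, b, c, d⟩ := y
  obtain ⟨a', b', c', d'⟩ := z
  obtain ⟨-, h1⟩ := hy
  obtain ⟨-, h2⟩ := hz
  obtain ⟨-, h3⟩ := h
  simp only [Prod.smul_mk, smul_eq_mul, Prod.mk_add_mk] at h1 h2 h3 ⊢
  have h4 : a * b' + a' * b - 2 * c * c' + 2 * ν * d * d' = 0 := by
    apply mul_left_cancel₀ (mul_ne_zero hα hβ)
    linear_combination h3 - α ^ 2 * h1 - β ^ 2 * h2
  have h5 : (a * c' - a' * c) ^ 2 = ν * (a * d' - a' * d) ^ 2 := by
    linear_combination a * a' * h4 - a ^ 2 * h2 - a' ^ 2 * h1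
  have h6 : a * d' - a' * d = 0 := by
    by_contra h0
    apply hν
    refine ⟨(a * c' - a' * c) / (a * d' - a' * d), ?_⟩
    field_simp
    linear_combination -h5
  rw [h6] at h5
  have h7 : a * c' - a' * c = 0 := by simpa using h5
  exact ⟨by linear_combination h7, by linear_combination h6⟩

lemma filter_dep {ν : K} (hν : ¬ IsSquare ν) {Φ Ψ : ι → K} (h : Indep2 Φ Ψ) {α β : K}
    (hα : α ≠ 0) (hβ : β ≠ 0) :
    E (fun L : ι → T4 K => ind (cone ν (app L Φ) ∧ cone ν (app L Ψ)
      ∧ cone ν (app L (α • Φ + β • Ψ)))) ≤ 4 * mu ν ^ 3 / Fintype.card K := by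
  have hq := card_pos_F (F := K)
  have h1 := E_app (k := 2) ![Φ, Ψ] h.fin
    (fun Y => ind (cone ν (Y 0) ∧ cone ν (Y 1) ∧ cone ν (α • Y 0 + β • Y 1)))
  have h2 : ∀ L : ι → T4 K, app L (α • Φ + β • Ψ) = α • app L Φ + β • app L Ψ := fun L => by
    simp [app, add_smul, sum_add_distrib, smul_sum, mul_smul]
  simp only [h2]
  refine (le_of_eq h1).trans ?_
  have h3 := E_equiv (finTwoArrowEquiv (T4 K))
    (fun p => ind (cone ν p.1 ∧ cone ν p.2 ∧ cone ν (α • p.1 + β • p.2)))
  refine (le_of_eq h3).trans ?_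
  rw [E_prod (fun y z : T4 K => ind (cone ν y ∧ cone ν z ∧ cone ν (α • y + β • z)))]
  have h4 : ∀ y : T4 K, E (fun z => ind (cone ν y ∧ cone ν z ∧ cone ν (α • y + β • z)))
      ≤ ind (cone ν y) * (1 / (Fintype.card K : ℝ) ^ 3) := by
    intro y
    by_cases hy : cone ν y
    · classical
      rw [ind_pos hy, one_mul, E_ind]
      have : (univ.filter fun z => cone ν y ∧ cone ν z ∧ cone ν (α • y + β • z)).card
          ≤ (univ : Finset K).card := by
        apply card_le_card_of_injOn (fun z => z.1) (fun _ _ => mem_univ _)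
        intro z hz z' hz' e
        simp only [coe_filter, mem_univ, true_and, Set.mem_ofPred_eq] at hz hz'
        have e' : z.1 = z'.1 := e
        have a1 := cap hν hy hz.2.1 hα hβ hz.2.2
        have a2 := cap hν hy hz'.2.1 hα hβ hz'.2.2
        have b1 : z.2.2.1 = z'.2.2.1 := mul_left_cancel₀ hy.1 (by rw [a1.1, a2.1, e'])
        have b2 : z.2.2.2 = z'.2.2.2 := mul_left_cancel₀ hy.1 (by rw [a1.2, a2.2, e'])
        have b3 : z.2.1 = z'.2.1 := mul_left_cancel₀ hz.2.1.1 (by
          rw [hz.2.1.2, e', hz'.2.1.2, b1, b2])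
        exact Prod.ext e' (Prod.ext b3 (Prod.ext b1 b2))
      have h' : ((univ.filter fun z => cone ν y ∧ cone ν z ∧ cone ν (α • y + β • z)).card : ℝ)
          ≤ Fintype.card K := by exact_mod_cast this
      simp only [Fintype.card_prod, Nat.cast_mul]
      rw [div_le_div_iff₀ (by positivity) (by positivity)]
      nlinarith [pow_pos hq 3]
    · rw [ind_neg hy, E_congr (g := fun _ => 0) (fun z => ind_neg fun hc => hy hc.1), E_zero]
      simp
  refine (E_mono h4).trans ?_
  rw [E_mulc]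
  change mu ν * _ ≤ _
  have a1 := le_mu ν
  have a2 := mu_pos ν
  have a3 : 1 / (Fintype.card K : ℝ) ≤ 2 * mu ν := by
    have : (1 : ℝ) / Fintype.card K = 2 * (1 / (2 * Fintype.card K)) := by field_simp
    linarith
  have a4 : (1 / (Fintype.card K : ℝ)) ^ 2 ≤ (2 * mu ν) ^ 2 :=
    pow_le_pow_left₀ (by positivity) a3 2
  calc mu ν * (1 / (Fintype.card K : ℝ) ^ 3)
      = mu ν * (1 / (Fintype.card K : ℝ)) ^ 2 / Fintype.card K := by field_simp
    _ ≤ mu ν * (2 * mu ν) ^ 2 / Fintype.card K := by gcongr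
    _ = _ := by ring

lemma filter3_dep {ν : K} (hν : ¬ IsSquare ν) {Φ Ψ Θ : ι → K} (h1 : Indep2 Φ Ψ)
    (h2 : Indep2 Φ Θ) (h3 : Indep2 Ψ Θ) (c : Fin 3 → K) (hc : c ≠ 0)
    (h : c 0 • Φ + c 1 • Ψ + c 2 • Θ = 0) :
    E (fun L : ι → T4 K => ind (cone ν (app L Φ) ∧ cone ν (app L Ψ)
      ∧ cone ν (app L Θ))) ≤ 4 * mu ν ^ 3 / Fintype.card K := by
  have c2 : c 2 ≠ 0 := fun e => by
    have := h1 (c 0) (c 1) (by simpa [e] using h)
    exact hc (vec_ext this.1 this.2 e)
  have c1 : c 1 ≠ 0 := fun e => c2 (h2 (c 0) (c 2) (by simpa [e] using h)).2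
  have c0 : c 0 ≠ 0 := fun e => c2 (h3 (c 1) (c 2) (by simpa [e] using h)).2
  have e : Θ = (-c 0 / c 2) • Φ + (-c 1 / c 2) • Ψ := by
    funext j
    have := congrFun h j
    simp only [Pi.add_apply, Pi.smul_apply, smul_eq_mul, Pi.zero_apply] at this ⊢
    field_simp
    linear_combination this
  rw [e]
  exact filter_dep hν h1 (div_ne_zero (neg_ne_zero.2 c0) c2) (div_ne_zero (neg_ne_zero.2 c1) c2)

lemma filter3 {ν : K} (hν : ¬ IsSquare ν) {Φ Ψ Θ : ι → K} (h1 : Indep2 Φ Ψ)
    (h2 : Indep2 Φ Θ) (h3 : Indep2 Ψ Θ) :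
    E (fun L : ι → T4 K => ind (cone ν (app L Φ) ∧ cone ν (app L Ψ)
      ∧ cone ν (app L Θ))) ≤ 4 * mu ν ^ 3 := by
  have a2 := mu_pos ν
  by_cases hd : ∃ c : Fin 3 → K, c ≠ 0 ∧ c 0 • Φ + c 1 • Ψ + c 2 • Θ = 0
  · obtain ⟨c, hc, h⟩ := hd
    refine (filter3_dep hν h1 h2 h3 c hc h).trans (div_le_self (by positivity) ?_)
    exact_mod_cast Fintype.card_pos
  · have := E_app (k := 3) ![Φ, Ψ, Θ] (fun c hc => by
      by_contra h0
      exact hd ⟨c, h0, by simpa [Fin.sum_univ_three] using hc⟩) (fun Y => ∏ i, ind (cone ν (Y i)))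
    rw [E_pi (fun _ y => ind (cone ν y))] at this
    have e : E (fun L : ι → T4 K => ind (cone ν (app L Φ) ∧ cone ν (app L Ψ)
      ∧ cone ν (app L Θ))) = mu ν ^ 3 := by
      simpa [mu, ind_and, Fin.prod_univ_three, mul_assoc] using this
    rw [e]
    nlinarith [pow_pos a2 3]

end Vale.Agent.P036
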