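import Vale.Agent.P036.Count
import Vale.Agent.P036.Filter

namespace Vale.Agent.P036

open Finset Vale.Agent.P047

/-- reduction modulo `m` -/
def red (m : ℕ) (z : Fin 3 → ℤ) : Fin 3 → ZMod m := fun l => ((z l : ℤ) : ZMod m)

lemma det3_red (m : ℕ) (a b c : Fin 3 → ℤ) :
    det3 (red m a) (red m b) (red m c) = ((det3 a b c : ℤ) : ZMod m) := by
  simp [det3_eq, red]

lemma cr_red (m : ℕ) (a b : Fin 3 → ℤ) : cr (red m a) (red m b) = red m (cr a b) := by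
  apply vec_ext <;> simp [red]

lemma dot_red (m : ℕ) (a b : Fin 3 → ℤ) :
    dot (red m a) (red m b) = ((dot a b : ℤ) : ZMod m) := by
  simp [dot, red]

/-- the six-dimensional vector seen by the filter -/
def Phi (m : ℕ) (s v : Fin 3 → ℤ) : Fin 3 ⊕ Fin 3 → ZMod m := Sum.elim (red m s) (red m v)

/-- bad triples -/
def C3 (T : ℤ) (v0 v1 v2 : Fin 3 → ℤ) : Prop :=
  cr v0 v1 ≠ 0 ∧ cr v0 v2 ≠ 0 ∧ cr v1 v2 ≠ 0 ∧ |det3 v0 v1 v2| ≤ T

/-- admissible structured vectors -/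
def SOK (Y : ℕ) (s : Fin 3 → ℤ) : Prop := InBox Y s ∧ 0 < s 0

/-- rows of a matrix given by columns -/
def row (a b c : Fin 3 → ℤ) (l : Fin 3) : Fin 3 → ℤ := ![a l, b l, c l]

lemma eq_zero_of_cast {m : ℕ} {a : ℤ} (h : ((a : ℤ) : ZMod m) = 0) (ha : |a| < m) : a = 0 := by
  rw [ZMod.intCast_zmod_eq_zero_iff_dvd] at h
  exact Int.eq_zero_of_abs_lt_dvd h ha

lemma SOK.cast_ne {Y m : ℕ} {s : Fin 3 → ℤ} (h : SOK Y s) (hY : Y < m) :
    ((s 0 : ℤ) : ZMod m) ≠ 0 := fun e => by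
  have h1 := (h.1 0).2
  have h2 := h.2
  have h3 : (Y : ℤ) < m := by exact_mod_cast hY
  have := eq_zero_of_cast e (by rw [abs_lt]; constructor <;> linarith)
  linarith

lemma exists_of_E_ind {Ω : Type*} [Fintype Ω] {P : Ω → Prop} (h : E (fun x => ind (P x)) ≠ 0) :
    ∃ x, P x := by
  by_contra hn
  apply h
  rw [E_congr (g := fun _ => 0) fun x => ind_neg fun hx => hn ⟨x, hx⟩, E_zero]

lemma InBox.row {r : ℕ} {a b c : Fin 3 → ℤ} (ha : InBox r a) (hb : InBox r b) (hc : InBox r c)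
    (l : Fin 3) : InBox r (row a b c l) := by
  intro i
  fin_cases i
  · exact ha l
  · exact hb l
  · exact hc l

lemma dot_row (a b c k : Fin 3 → ℤ) (l : Fin 3) :
    dot (row a b c l) k = a l * k 0 + b l * k 1 + c l * k 2 := rfl

lemma exists_kernel {r : ℕ} {a b c : Fin 3 → ℤ} (ha : InBox r a) (hb : InBox r b)
    (hc : InBox r c) (hab : cr a b ≠ 0) (hd : det3 a b c = 0) :
    (∃ l l', cr (row a b c l) (row a b c l') ≠ 0) ∧
      ∃ k, Prim k ∧ hgt k ≤ 2 * r ^ 2 ∧ ∀ l, dot (row a b c l) k = 0 := by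
  have key : ∀ l l', cr (row a b c l) (row a b c l') ≠ 0 →
      (∀ j, dot (row a b c j) (cr (row a b c l) (row a b c l')) = 0) →
      (∃ l l', cr (row a b c l) (row a b c l') ≠ 0) ∧
      ∃ k, Prim k ∧ hgt k ≤ 2 * r ^ 2 ∧ ∀ l, dot (row a b c l) k = 0 := by
    intro l l' h1 h2
    refine ⟨⟨l, l', h1⟩, ?_⟩
    obtain ⟨k, j, hk, hj, e, hh⟩ := exists_prim h1
    refine ⟨k, hk, hh.trans ((ha.row hb hc l).hgt_cr_le (ha.row hb hc l')), fun i => ?_⟩
    have := h2 i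
    rw [e, dot_comm, dot_smul_left, dot_comm] at this
    exact (mul_eq_zero.1 this).resolve_left hj
  rw [det3_eq] at hd
  obtain ⟨l, hl⟩ := Function.ne_iff.1 hab
  fin_cases l
  · refine key 1 2 (fun h => hl ?_) fun j => ?_
    · have := congrFun h 2
      simp [row] at this ⊢
      linear_combination this
    · fin_cases j <;> simp [row, dot] <;> first | ring1 | linear_combination hd
  · refine key 2 0 (fun h => hl ?_) fun j => ?_
    · have := congrFun h 2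
      simp [row] at this ⊢
      linear_combination this
    · fin_cases j <;> simp [row, dot] <;> first | ring1 | linear_combination hd
  · refine key 0 1 (fun h => hl ?_) fun j => ?_
    · have := congrFun h 2
      simp [row] at this ⊢
      linear_combination this
    · fin_cases j <;> simp [row, dot] <;> first | ring1 | linear_combination hd

lemma sing_count {α : Type*} (F : Finset α) (a b c : α → Fin 3 → ℤ) (r D : ℕ) (hD : 0 < D)
    (w k : Fin 3 → ℤ) (hk : Prim k) (hw : IsCoprime (D : ℤ) (w 0))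
    (hinj : ∀ x ∈ F, ∀ y ∈ F, a x = a y → b x = b y → c x = c y → x = y)
    (hbox : ∀ x ∈ F, InBox r (a x) ∧ InBox r (b x) ∧ InBox r (c x))
    (hF : ∀ x ∈ F, ∀ l, dot (row (a x) (b x) (c x) l) k = 0 ∧
      ∀ i, (D : ℤ) ∣ cr (row (a x) (b x) (c x) l) w i)
    (x0 : α) (hx0 : x0 ∈ F)
    (hind : ∃ l l', cr (row (a x0) (b x0) (c x0) l) (row (a x0) (b x0) (c x0) l') ≠ 0) :
    (F.card : ℝ) ≤ (18 * r ^ 2 / D) ^ 3 / (hgt k : ℝ) ^ 3 := by
  classical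
  obtain ⟨l0, l1, hind⟩ := hind
  have hb : ∀ x ∈ F, ∀ l, InBox r (row (a x) (b x) (c x) l) := fun x hx l =>
    (hbox x hx).1.row (hbox x hx).2.1 (hbox x hx).2.2 l
  have key : ∀ (l : Fin 3) (G : Finset α), G ⊆ F →
      ((G.image fun x => row (a x) (b x) (c x) l).card : ℝ) ≤ 18 * r ^ 2 / D / hgt k := by
    intro l G hG
    rw [div_div]
    refine plane_count hk D hD (fun z => dot z k = 0 ∧ ∀ i, (D : ℤ) ∣ cr z w i)
      (fun _ h => h.1) ?_ r (hF x0 hx0 l0) (hF x0 hx0 l1) (hb x0 hx0 l0).hgt_le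
      (hb x0 hx0 l1).hgt_le hind _ ?_
    · intro z z' hz hz' i
      apply hw.dvd_of_dvd_mul_left
      obtain ⟨p0, e0⟩ := hz.2 0
      obtain ⟨p1, e1⟩ := hz.2 1
      obtain ⟨p2, e2⟩ := hz.2 2
      obtain ⟨p0', e0'⟩ := hz'.2 0
      obtain ⟨p1', e1'⟩ := hz'.2 1
      obtain ⟨p2', e2'⟩ := hz'.2 2
      simp only [cr0, cr1, cr2] at e0 e1 e2 e0' e1' e2'
      fin_cases i
      · refine ⟨z 1 * p1' + z 2 * p2' - z' 0 * (-p0) + 0, ?_⟩
        simp
        linear_combination z 1 * e1' + z 2 * e2' + z' 0 * e0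
      · refine ⟨z' 0 * p1 - z 0 * p1', ?_⟩
        simp
        linear_combination z' 0 * e1 - z 0 * e1'
      · refine ⟨z' 0 * p2 - z 0 * p2', ?_⟩
        simp
        linear_combination z' 0 * e2 - z 0 * e2'
    · intro z hz z' hz'
      obtain ⟨x, hx, rfl⟩ := mem_image.1 hz
      obtain ⟨y, hy, rfl⟩ := mem_image.1 hz'
      refine ⟨⟨?_, fun i => ?_⟩, (hb x (hG hx) l).hgt_sub_le (hb y (hG hy) l)⟩
      · rw [dot_sub_left, (hF x (hG hx) l).1, (hF y (hG hy) l).1, sub_self]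
      · rw [cr_sub_left]
        exact dvd_sub ((hF x (hG hx) l).2 i) ((hF y (hG hy) l).2 i)
  rw [← div_pow]
  refine triple_card F (fun x => row (a x) (b x) (c x) 0) (fun x => row (a x) (b x) (c x) 1)
    (fun x => row (a x) (b x) (c x) 2) ?_ _ (by positivity) (key 0 F Subset.rfl)
    (key 1 F Subset.rfl) fun x _ => key 2 _ (filter_subset _ _)
  intro x hx y hy e0 e1 e2
  exact hinj x hx y hy (vec_ext (congrFun e0 0) (congrFun e1 0) (congrFun e2 0))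
    (vec_ext (congrFun e0 1) (congrFun e1 1) (congrFun e2 1))
    (vec_ext (congrFun e0 2) (congrFun e1 2) (congrFun e2 2))

section

variable {m : ℕ} [Fact m.Prime]

lemma indep_of_not_par {Y r : ℕ} {s s' v v' : Fin 3 → ℤ} (hs : SOK Y s) (hs' : SOK Y s')
    (hv : InBox r v) (hv' : InBox r v') (hY : Y < m) (hm : Y * r < m)
    (h : ¬ ∀ l, s 0 * v' l = s' 0 * v l) : Indep2 (Phi m s v) (Phi m s' v') := by
  intro α β e
  have e0 : α * (s 0 : ZMod m) + β * (s' 0 : ZMod m) = 0 := congrFun e (Sum.inl 0)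
  have e1 : ∀ l, α * (v l : ZMod m) + β * (v' l : ZMod m) = 0 := fun l => congrFun e (Sum.inr l)
  have hβ : β = 0 := by
    by_contra hβ
    apply h
    intro l
    have a1 : ((s 0 * v' l - s' 0 * v l : ℤ) : ZMod m) = 0 := by
      apply mul_left_cancel₀ hβ
      push_cast
      linear_combination (s 0 : ZMod m) * e1 l - (v l : ZMod m) * e0
    have a2 : s 0 * v' l ≤ Y * r := mul_le_mul (hs.1 0).2 (hv' l).2 (hv' l).1 (by positivity)
    have a3 : s' 0 * v l ≤ Y * r := mul_le_mul (hs'.1 0).2 (hv l).2 (hv l).1 (by positivity)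
    have a4 : 0 ≤ s 0 * v' l := mul_nonneg (hs.1 0).1 (hv' l).1
    have a5 : 0 ≤ s' 0 * v l := mul_nonneg (hs'.1 0).1 (hv l).1
    have a6 : (Y : ℤ) * r < m := by exact_mod_cast hm
    have := eq_zero_of_cast a1 (by rw [abs_lt]; constructor <;> linarith)
    linarith
  refine ⟨?_, hβ⟩
  rw [hβ, zero_mul, add_zero] at e0
  exact (mul_eq_zero.1 e0).resolve_right (hs.cast_ne hY)

lemma indep_of_cr {Y r : ℕ} {s s' v v' : Fin 3 → ℤ} (hs : SOK Y s) (hs' : SOK Y s')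
    (hv : InBox r v) (hv' : InBox r v') (hY : Y < m) (hm : Y * r < m)
    (h : cr v v' ≠ 0) : Indep2 (Phi m s v) (Phi m s' v') := by
  apply indep_of_not_par hs hs' hv hv' hY hm
  intro e
  apply h
  rw [cr_eq_zero_iff]
  intro i j
  apply mul_left_cancel₀ hs.2.ne'
  linear_combination v i * e j - v j * e i

/-- probability that the random unimodular map sends the structured vectors to given residues -/
noncomputable def Pg (m : ℕ) [Fact m.Prime] (s0 s1 s2 v0 v1 v2 : Fin 3 → ℤ) : ℝ :=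
  E fun g : SL3 (ZMod m) => ind (act g (red m s0) = red m v0 ∧ act g (red m s1) = red m v1
    ∧ act g (red m s2) = red m v2)

/-- probability that three vectors pass the filter -/
noncomputable def PL (ν : ZMod m) (s0 s1 s2 v0 v1 v2 : Fin 3 → ℤ) : ℝ :=
  E fun L : Fin 3 ⊕ Fin 3 → T4 (ZMod m) => ind (cone ν (app L (Phi m s0 v0))
    ∧ cone ν (app L (Phi m s1 v1)) ∧ cone ν (app L (Phi m s2 v2)))

lemma Pg_nonneg (s0 s1 s2 v0 v1 v2 : Fin 3 → ℤ) : 0 ≤ Pg m s0 s1 s2 v0 v1 v2 := E_ind_nonneg _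

lemma PL_nonneg (ν : ZMod m) (s0 s1 s2 v0 v1 v2 : Fin 3 → ℤ) : 0 ≤ PL ν s0 s1 s2 v0 v1 v2 :=
  E_ind_nonneg _

lemma Pg_det {s0 s1 s2 v0 v1 v2 : Fin 3 → ℤ} (h : Pg m s0 s1 s2 v0 v1 v2 ≠ 0) :
    ((det3 v0 v1 v2 : ℤ) : ZMod m) = ((det3 s0 s1 s2 : ℤ) : ZMod m) := by
  obtain ⟨g, h0, h1, h2⟩ := exists_of_E_ind h
  rw [← det3_red, ← det3_red, ← h0, ← h1, ← h2, det3_act]

lemma Pg_ker {s0 s1 s2 v0 v1 v2 k : Fin 3 → ℤ} (h : Pg m s0 s1 s2 v0 v1 v2 ≠ 0)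
    (hk : ∀ l, dot (row v0 v1 v2 l) k = 0) (l : Fin 3) : (m : ℤ) ∣ dot (row s0 s1 s2 l) k := by
  obtain ⟨g, h0, h1, h2⟩ := exists_of_E_ind h
  have : (fun l => ((dot (row s0 s1 s2 l) k : ℤ) : ZMod m)) = 0 := by
    apply act_eq_zero g
    funext i
    have a0 := congrFun h0 i
    have a1 := congrFun h1 i
    have a2 := congrFun h2 i
    have a3 : ((dot (row v0 v1 v2 i) k : ℤ) : ZMod m) = 0 := by rw [hk i]; simp
    simp only [act, red, dot_row, Pi.zero_apply] at a0 a1 a2 a3 ⊢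
    push_cast at a3 ⊢
    linear_combination (k 0 : ZMod m) * a0 + (k 1 : ZMod m) * a1 + (k 2 : ZMod m) * a2 + a3
  exact (ZMod.intCast_zmod_eq_zero_iff_dvd _ _).1 (congrFun this l)

lemma Pg_rank1 {s0 s1 s2 v0 v1 v2 : Fin 3 → ℤ} (h : Pg m s0 s1 s2 v0 v1 v2 ≠ 0)
    (h01 : cr s0 s1 = 0) (h02 : cr s0 s2 = 0) (h12 : cr s1 s2 = 0) (l i : Fin 3) :
    (m : ℤ) ∣ cr (row v0 v1 v2 l) (row s0 s1 s2 0) i := by
  obtain ⟨g, h0, h1, h2⟩ := exists_of_E_ind h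
  have key : ∀ a b x y : Fin 3 → ℤ, cr a b = 0 → act g (red m a) = red m x →
      act g (red m b) = red m y → (m : ℤ) ∣ x l * b 0 - y l * a 0 := by
    intro a b x y hab ha hb
    rw [← ZMod.intCast_zmod_eq_zero_iff_dvd]
    have a0 := congrFun ha l
    have a1 := congrFun hb l
    rw [cr_eq_zero_iff] at hab
    have b1 : ((a 0 * b 1 : ℤ) : ZMod m) = ((a 1 * b 0 : ℤ) : ZMod m) := by rw [hab 0 1]
    have b2 : ((a 0 * b 2 : ℤ) : ZMod m) = ((a 2 * b 0 : ℤ) : ZMod m) := by rw [hab 0 2]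
    simp only [act, red] at a0 a1
    push_cast at b1 b2 ⊢
    linear_combination (-(b 0 : ZMod m)) * a0 + (a 0 : ZMod m) * a1 - g.1.2.1 l * b1
      - g.1.2.2 l * b2
  fin_cases i
  · exact key s1 s2 v1 v2 h12 h1 h2
  · exact key s2 s0 v2 v0 (cr_comm_zero h02) h2 h0
  · exact key s0 s1 v0 v1 h01 h0 h1

lemma card_cast : ((Fintype.card (ZMod m) : ℕ) : ℝ) = m := by rw [ZMod.card]

lemma Pg_le8 {s0 s1 s2 : Fin 3 → ℤ} (h : ((det3 s0 s1 s2 : ℤ) : ZMod m) ≠ 0)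
    (v0 v1 v2 : Fin 3 → ℤ) : Pg m s0 s1 s2 v0 v1 v2 ≤ 2 / (m : ℝ) ^ 8 := by
  rw [← card_cast]
  exact prob3 (by rwa [det3_red]) _ _ _

lemma Pg_le6 {s0 s1 s2 : Fin 3 → ℤ} (h : red m (cr s0 s1) ≠ 0 ∨ red m (cr s0 s2) ≠ 0 ∨
    red m (cr s1 s2) ≠ 0) (v0 v1 v2 : Fin 3 → ℤ) : Pg m s0 s1 s2 v0 v1 v2 ≤ 2 / (m : ℝ) ^ 6 := by
  rw [← card_cast]
  simp only [← cr_red] at h
  rcases h with h | h | h
  · exact le_trans (E_mono fun _ => ind_mono fun h => ⟨h.1, h.2.1⟩) (prob2 h _ _)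
  · exact le_trans (E_mono fun _ => ind_mono fun h => ⟨h.1, h.2.2⟩) (prob2 h _ _)
  · exact le_trans (E_mono fun _ => ind_mono fun h => h.2) (prob2 h _ _)

lemma Pg_le3 {s0 s1 s2 : Fin 3 → ℤ} (h : ((s0 0 : ℤ) : ZMod m) ≠ 0) (v0 v1 v2 : Fin 3 → ℤ) :
    Pg m s0 s1 s2 v0 v1 v2 ≤ 2 / (m : ℝ) ^ 3 := by
  rw [← card_cast]
  exact le_trans (E_mono fun _ => ind_mono fun h => h.1) (prob1 (a := red m s0) h _)

lemma PL_le {ν : ZMod m} (hν : ¬ IsSquare ν) {Y r : ℕ} {T : ℤ} {s0 s1 s2 v0 v1 v2 : Fin 3 → ℤ}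
    (h0 : SOK Y s0) (h1 : SOK Y s1) (h2 : SOK Y s2) (b0 : InBox r v0) (b1 : InBox r v1)
    (b2 : InBox r v2) (hY : Y < m) (hm : Y * r < m) (hC : C3 T v0 v1 v2) :
    PL ν s0 s1 s2 v0 v1 v2 ≤ 4 * mu ν ^ 3 :=
  filter3 hν (indep_of_cr h0 h1 b0 b1 hY hm hC.1) (indep_of_cr h0 h2 b0 b2 hY hm hC.2.1)
    (indep_of_cr h1 h2 b1 b2 hY hm hC.2.2.1)

lemma PL_dep {ν : ZMod m} (hν : ¬ IsSquare ν) {Y r : ℕ} {T : ℤ} {s0 s1 s2 v0 v1 v2 : Fin 3 → ℤ}
    (h0 : SOK Y s0) (h1 : SOK Y s1) (h2 : SOK Y s2) (b0 : InBox r v0) (b1 : InBox r v1)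
    (b2 : InBox r v2) (hY : Y < m) (hm : Y * r < m) (hC : C3 T v0 v1 v2) {k : Fin 3 → ℤ}
    (hk : Prim k) (hs : ∀ l, dot (row s0 s1 s2 l) k = 0) (hv : ∀ l, dot (row v0 v1 v2 l) k = 0) :
    PL ν s0 s1 s2 v0 v1 v2 ≤ 4 * mu ν ^ 3 / m := by
  rw [← card_cast]
  refine filter3_dep hν (indep_of_cr h0 h1 b0 b1 hY hm hC.1)
    (indep_of_cr h0 h2 b0 b2 hY hm hC.2.1) (indep_of_cr h1 h2 b1 b2 hY hm hC.2.2.1)
    (red m k) ?_ ?_
  · intro e
    obtain ⟨b, hb⟩ := hk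
    have := dot_red m b k
    rw [e, hb] at this
    simp [dot] at this
  · funext j
    rcases j with l | l
    · have : ((dot (row s0 s1 s2 l) k : ℤ) : ZMod m) = 0 := by rw [hs l]; simp
      simp only [dot_row] at this
      push_cast at this
      simp only [Phi, red, Pi.add_apply, Pi.smul_apply, Sum.elim_inl, smul_eq_mul, Pi.zero_apply]
      linear_combination this
    · have : ((dot (row v0 v1 v2 l) k : ℤ) : ZMod m) = 0 := by rw [hv l]; simp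
      simp only [dot_row] at this
      push_cast at this
      simp only [Phi, red, Pi.add_apply, Pi.smul_apply, Sum.elim_inr, smul_eq_mul, Pi.zero_apply]
      linear_combination this

end

end Vale.Agent.P036
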