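import Vale.Agent.P036.Core1

namespace Vale.Agent.P036

open Finset Vale.Agent.P047

lemma two_indep {F : Type*} [Field F] {a b : Fin 3 → F} (h : cr a b ≠ 0) {α β : F}
    (e : ∀ l, a l * α + b l * β = 0) : α = 0 ∧ β = 0 := by
  rw [Ne, cr_eq_zero_iff] at h
  push Not at h
  obtain ⟨i, j, h⟩ := h
  have h' := sub_ne_zero.2 h
  constructor
  · apply mul_left_cancel₀ h'
    linear_combination b j * e i - b i * e j
  · apply mul_left_cancel₀ h'
    linear_combination a i * e j - a j * e i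

lemma sum_le_of_two {α : Type*} [Fintype α] (w : α → ℝ) (P1 P2 : α → Prop) [DecidablePred P1]
    [DecidablePred P2] (W1 W2 : ℝ) (h : ∀ x, w x ≤ ind (P1 x) * W1 + ind (P2 x) * W2) :
    ∑ x, w x ≤ (univ.filter P1).card * W1 + (univ.filter P2).card * W2 := by
  refine (sum_le_sum fun x _ => h x).trans (le_of_eq ?_)
  rw [sum_add_distrib, ← sum_mul, ← sum_mul, sum_ind, sum_ind]

/-- structured triples whose determinant has a small residue -/
def NG (q : ℕ) (T : ℤ) (s0 s1 s2 : Fin 3 → ℤ) : Prop :=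
  ∃ t : ℤ, |t| ≤ T ∧ (q : ℤ) ∣ t - det3 s0 s1 s2

/-- singular modulo `q` but not of rank one -/
def R2 (q : ℕ) (s0 s1 s2 : Fin 3 → ℤ) : Prop :=
  (q : ℤ) ∣ det3 s0 s1 s2 ∧ (cr s0 s1 ≠ 0 ∨ cr s0 s2 ≠ 0 ∨ cr s1 s2 ≠ 0)

/-- rank one -/
def R1 (s0 s1 s2 : Fin 3 → ℤ) : Prop := cr s0 s1 = 0 ∧ cr s0 s2 = 0

variable {q m : ℕ} [Fact q.Prime] [Fact m.Prime] {α : Type*} [Fintype α]

/-- expected number of surviving bad triples above a structured triple -/
noncomputable def cost (q : ℕ) [Fact q.Prime] (ν : ZMod m) (T : ℤ) (a b c : α → Fin 3 → ℤ)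
    (s0 s1 s2 : Fin 3 → ℤ) : ℝ :=
  ∑ x, ind (C3 T (a x) (b x) (c x)) * (Pg q s0 s1 s2 (a x) (b x) (c x)
    * PL ν s0 s1 s2 (a x) (b x) (c x))

lemma costA {ν : ZMod m} (hν : ¬ IsSquare ν) {Y r : ℕ} {T : ℤ} {s0 s1 s2 : Fin 3 → ℤ}
    (h0 : SOK Y s0) (h1 : SOK Y s1) (h2 : SOK Y s2) (hY : Y < m) (hm : Y * r < m)
    (hT : 2 * T < q) (a b c : α → Fin 3 → ℤ)
    (hinj : ∀ x y, a x = a y → b x = b y → c x = c y → x = y)
    (hbox : ∀ x, InBox r (a x) ∧ InBox r (b x) ∧ InBox r (c x))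
    (hd : ((det3 s0 s1 s2 : ℤ) : ZMod q) ≠ 0) :
    cost q ν T a b c s0 s1 s2 ≤
      3456 * (18 * r ^ 2) ^ 3 * mu ν ^ 3 * Hn (4 * r ^ 2) * (ind (NG q T s0 s1 s2) / q ^ 8) := by
  classical
  have hμ := mu_pos ν
  have hdv : ∀ x, Pg q s0 s1 s2 (a x) (b x) (c x) ≠ 0 →
      (q : ℤ) ∣ det3 (a x) (b x) (c x) - det3 s0 s1 s2 := fun x hx => by
    rw [← ZMod.intCast_zmod_eq_zero_iff_dvd]
    push_cast
    rw [Pg_det hx, sub_self]
  by_cases hN : NG q T s0 s1 s2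
  · obtain ⟨t, ht, htd⟩ := hN
    have hb := sum_le_of_two (fun x => ind (C3 T (a x) (b x) (c x))
      * (Pg q s0 s1 s2 (a x) (b x) (c x) * PL ν s0 s1 s2 (a x) (b x) (c x)))
      (fun x => cr (a x) (b x) ≠ 0 ∧ det3 (a x) (b x) (c x) = t) (fun _ => False)
      (2 / (q : ℝ) ^ 8 * (4 * mu ν ^ 3)) 0 ?_
    · have hc := matrix_count (univ.filter fun x => cr (a x) (b x) ≠ 0 ∧ det3 (a x) (b x) (c x) = t)
        a b c r t (fun x _ y _ => hinj x y) (fun x _ => hbox x) fun x hx => (mem_filter.1 hx).2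
      rw [ind_pos (show NG q T s0 s1 s2 from ⟨t, ht, htd⟩)]
      refine hb.trans ?_
      rw [mul_zero, add_zero]
      refine (mul_le_mul_of_nonneg_right hc (by positivity)).trans (le_of_eq ?_)
      ring
    · intro x
      rw [mul_zero, add_zero]
      by_cases hC : C3 T (a x) (b x) (c x)
      · by_cases hP : Pg q s0 s1 s2 (a x) (b x) (c x) = 0
        · rw [hP, zero_mul, mul_zero]
          exact mul_nonneg (ind_nonneg _) (by positivity)
        · have e : det3 (a x) (b x) (c x) = t := by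
            have a1 := dvd_sub (hdv x hP) htd
            have a2 := abs_le.1 hC.2.2.2
            have a3 := abs_le.1 ht
            have := Int.eq_zero_of_abs_lt_dvd a1 (by rw [abs_lt]; constructor <;> linarith)
            linarith
          rw [ind_pos hC, ind_pos ⟨hC.1, e⟩, one_mul, one_mul]
          exact mul_le_mul (Pg_le8 hd _ _ _) (PL_le hν h0 h1 h2 (hbox x).1 (hbox x).2.1
            (hbox x).2.2 hY hm hC) (PL_nonneg _ _ _ _ _ _ _) (by positivity)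
      · rw [ind_neg hC, zero_mul]
        exact mul_nonneg (ind_nonneg _) (by positivity)
  · rw [ind_neg hN, zero_div, mul_zero]
    apply le_of_eq
    apply sum_eq_zero
    intro x _
    by_cases hC : C3 T (a x) (b x) (c x)
    · by_cases hP : Pg q s0 s1 s2 (a x) (b x) (c x) = 0
      · rw [hP, zero_mul, mul_zero]
      · exact absurd ⟨_, hC.2.2.2, hdv x hP⟩ hN
    · rw [ind_neg hC, zero_mul]

lemma costB {ν : ZMod m} (hν : ¬ IsSquare ν) {Y r : ℕ} {T : ℤ} {s0 s1 s2 : Fin 3 → ℤ}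
    (h0 : SOK Y s0) (h1 : SOK Y s1) (h2 : SOK Y s2) (hY : Y < m) (hm : Y * r < m)
    (hT : T < q) (a b c : α → Fin 3 → ℤ)
    (hinj : ∀ x y, a x = a y → b x = b y → c x = c y → x = y)
    (hbox : ∀ x, InBox r (a x) ∧ InBox r (b x) ∧ InBox r (c x))
    (hd : ((det3 s0 s1 s2 : ℤ) : ZMod q) = 0) (D : ℕ) (hD : 0 < D) (w : Fin 3 → ℤ)
    (hw : IsCoprime (D : ℤ) (w 0)) (Wg S : ℝ) (hWg : 0 ≤ Wg)
    (hg : ∀ v0 v1 v2, Pg q s0 s1 s2 v0 v1 v2 ≤ Wg)
    (hDw : ∀ v0 v1 v2, Pg q s0 s1 s2 v0 v1 v2 ≠ 0 → ∀ l i, (D : ℤ) ∣ cr (row v0 v1 v2 l) w i)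
    (hS : ∀ A : Finset (Fin 3 → ℤ), (∀ k ∈ A, k ≠ 0 ∧ hgt k ≤ 2 * r ^ 2 ∧
      (∀ l, (q : ℤ) ∣ dot (row s0 s1 s2 l) k) ∧ ∃ l, dot (row s0 s1 s2 l) k ≠ 0) →
      ∑ k ∈ A, (1 : ℝ) / (hgt k : ℝ) ^ 3 ≤ S) :
    cost q ν T a b c s0 s1 s2 ≤
      Wg * (18 * r ^ 2 / D) ^ 3 * (4 * mu ν ^ 3) * (432 * Hn (4 * r ^ 2) / m + S) := by
  classical
  have hμ := mu_pos ν
  let P : α → (Fin 3 → ℤ) → Prop := fun x k =>
    Prim k ∧ hgt k ≤ 2 * r ^ 2 ∧ ∀ l, dot (row (a x) (b x) (c x) l) k = 0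
  let G : α → Prop := fun x => C3 T (a x) (b x) (c x) ∧ Pg q s0 s1 s2 (a x) (b x) (c x) ≠ 0
  let Ex : α → Prop := fun x => ∃ k, P x k ∧ ∀ l, dot (row s0 s1 s2 l) k = 0
  have hker : ∀ x, G x → (∃ l l', cr (row (a x) (b x) (c x) l) (row (a x) (b x) (c x) l') ≠ 0)
      ∧ ∃ k, P x k := fun x hx => by
    apply exists_kernel (hbox x).1 (hbox x).2.1 (hbox x).2.2 hx.1.1
    exact eq_zero_of_cast ((Pg_det hx.2).trans hd) (hx.1.2.2.2.trans_lt hT)
  have hcount : ∀ (Q : α → Prop) (S' : ℝ), (∀ A : Finset (Fin 3 → ℤ),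
      (∀ k ∈ A, ∃ x, (G x ∧ Q x) ∧ P x k) → ∑ k ∈ A, (1 : ℝ) / (hgt k : ℝ) ^ 3 ≤ S') →
      ∀ M : Finset α, (∀ x ∈ M, G x ∧ Q x) → (M.card : ℝ) ≤ (18 * r ^ 2 / D) ^ 3 * S' := by
    intro Q S' hS' M hM
    apply card_le_of_fiber _ P (fun x hx => (hker x (hM x hx).1).2) _ _ (by positivity)
    · intro k F hF ⟨x0, hx0⟩ hP
      have hG : ∀ x ∈ F, G x := fun x hx => (hM x (hF hx)).1
      exact sing_count F a b c r D hD w k (hP x0 hx0).1 hw (fun x _ y _ => hinj x y)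
        (fun x _ => hbox x) (fun x hx l => ⟨(hP x hx).2.2 l, hDw _ _ _ (hG x hx).2 l⟩) x0 hx0
        (hker x0 (hG x0 hx0)).1
    · intro A hA
      apply hS'
      intro k hk
      obtain ⟨x, hx, hxk⟩ := hA k hk
      exact ⟨x, hM x hx, hxk⟩
  have c1 := hcount Ex (432 * Hn (4 * r ^ 2)) fun A hA => by
    have := sum_all A (2 * r ^ 2) fun k hk => by
      obtain ⟨x, -, h1, h2, -⟩ := hA k hk
      exact ⟨h1.ne_zero, h2⟩
    rwa [show 2 * (2 * r ^ 2) = 4 * r ^ 2 by ring] at this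
  have c2 := hcount (fun x => ¬ Ex x) S fun A hA => by
    apply hS
    intro k hk
    obtain ⟨x, ⟨hG, hE⟩, hP⟩ := hA k hk
    refine ⟨hP.1.ne_zero, hP.2.1, Pg_ker hG.2 hP.2.2, ?_⟩
    by_contra hn
    push Not at hn
    exact hE ⟨k, hP, hn⟩
  have hmR : (0 : ℝ) < m := by exact_mod_cast (Fact.out : m.Prime).pos
  have hb := sum_le_of_two (fun x => ind (C3 T (a x) (b x) (c x))
      * (Pg q s0 s1 s2 (a x) (b x) (c x) * PL ν s0 s1 s2 (a x) (b x) (c x)))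
      (fun x => G x ∧ Ex x) (fun x => G x ∧ ¬ Ex x)
      (Wg * (4 * mu ν ^ 3 / m)) (Wg * (4 * mu ν ^ 3)) ?_
  · have p1 : 0 ≤ Wg * (4 * mu ν ^ 3 / m) := by positivity
    have p2 : 0 ≤ Wg * (4 * mu ν ^ 3) := by positivity
    refine hb.trans ((add_le_add
      (mul_le_mul_of_nonneg_right (c1 _ fun x hx => (mem_filter.1 hx).2) p1)
      (mul_le_mul_of_nonneg_right (c2 _ fun x hx => (mem_filter.1 hx).2) p2)).trans (le_of_eq ?_))
    ring
  · intro x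
    by_cases hG : G x
    · rw [ind_pos hG.1, one_mul]
      by_cases hE : Ex x
      · rw [ind_pos ⟨hG, hE⟩, ind_neg (fun h => h.2 hE), one_mul, zero_mul, add_zero]
        obtain ⟨k, hP, hk⟩ := hE
        exact mul_le_mul (hg _ _ _) (PL_dep hν h0 h1 h2 (hbox x).1 (hbox x).2.1
          (hbox x).2.2 hY hm hG.1 hP.1 hk hP.2.2) (PL_nonneg _ _ _ _ _ _ _) hWg
      · rw [ind_neg (fun h => hE h.2), ind_pos ⟨hG, hE⟩, one_mul, zero_mul, zero_add]
        exact mul_le_mul (hg _ _ _) (PL_le hν h0 h1 h2 (hbox x).1 (hbox x).2.1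
          (hbox x).2.2 hY hm hG.1) (PL_nonneg _ _ _ _ _ _ _) hWg
    · rw [ind_neg (P := G x ∧ Ex x) (fun h => hG h.1),
        ind_neg (P := G x ∧ ¬ Ex x) (fun h => hG h.1), zero_mul, zero_mul, add_zero]
      by_cases hC : C3 T (a x) (b x) (c x)
      · have : Pg q s0 s1 s2 (a x) (b x) (c x) = 0 := by
          by_contra h
          exact hG ⟨hC, h⟩
        rw [this, zero_mul, mul_zero]
      · rw [ind_neg hC, zero_mul]

omit [Fact q.Prime] in
lemma hgt_ge_of_nonexact {Y : ℕ} {z k : Fin 3 → ℤ} (hz : InBox Y z) (hY : 0 < Y)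
    (h1 : (q : ℤ) ∣ dot z k) (h2 : dot z k ≠ 0) : (q : ℝ) / (3 * Y) ≤ hgt k := by
  have a1 : (q : ℤ) ≤ |dot z k| := Int.le_of_dvd (abs_pos.2 h2) ((dvd_abs _ _).2 h1)
  have a2 := abs_dot_le z k
  have a3 : (hgt z : ℤ) ≤ Y := by exact_mod_cast hz.hgt_le
  have a4 : (q : ℤ) ≤ hgt k * (3 * Y) := by
    have : (0 : ℤ) ≤ hgt k := by positivity
    nlinarith
  have hYR : (0 : ℝ) < Y := by exact_mod_cast hY
  rw [div_le_iff₀ (by positivity)]
  exact_mod_cast a4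

lemma cost_le {ν : ZMod m} (hν : ¬ IsSquare ν) {Y r : ℕ} {T : ℤ} {s0 s1 s2 : Fin 3 → ℤ}
    (h0 : SOK Y s0) (h1 : SOK Y s1) (h2 : SOK Y s2) (hY : Y < m) (hm : Y * r < m)
    (hT0 : 0 ≤ T) (hT : 2 * T < q) (hYq : 2 * Y ^ 2 < q) (a b c : α → Fin 3 → ℤ)
    (hinj : ∀ x y, a x = a y → b x = b y → c x = c y → x = y)
    (hbox : ∀ x, InBox r (a x) ∧ InBox r (b x) ∧ InBox r (c x)) :
    cost q ν T a b c s0 s1 s2 ≤ 3456 * (18 * r ^ 2) ^ 3 * mu ν ^ 3 * Hn (4 * r ^ 2) *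
      (ind (NG q T s0 s1 s2) / q ^ 8 + 1 / (q ^ 6 * m)
        + ind (R2 q s0 s1 s2) / (q ^ 6 * ((q : ℝ) / (3 * Y)) ^ 2)
        + ind (R1 s0 s1 s2) / (q ^ 6 * ((q : ℝ) / (3 * Y)))) := by
  have hμ := mu_pos ν
  have hq : q.Prime := Fact.out
  have hqR : (0 : ℝ) < q := by exact_mod_cast hq.pos
  have hmR : (0 : ℝ) < m := by exact_mod_cast (Fact.out : m.Prime).pos
  have hY0 : 0 < Y := by
    have := h0.2.trans_le (h0.1 0).2
    exact_mod_cast this
  have hYR : (1 : ℝ) ≤ Y := by exact_mod_cast hY0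
  have hH := Hn_nonneg (4 * r ^ 2)
  set H0 : ℝ := (q : ℝ) / (3 * Y) with hH0
  have hH0p : 0 < H0 := by positivity
  have i1 := ind_nonneg (NG q T s0 s1 s2)
  have i2 := ind_nonneg (R2 q s0 s1 s2)
  have i3 := ind_nonneg (R1 s0 s1 s2)
  have hYq' : Y < q := by nlinarith
  by_cases hd : ((det3 s0 s1 s2 : ℤ) : ZMod q) = 0
  swap
  · refine (costA hν h0 h1 h2 hY hm hT a b c hinj hbox hd).trans
      (mul_le_mul_of_nonneg_left ?_ (by positivity))
    have : (0 : ℝ) ≤ 1 / (q ^ 6 * m) := by positivity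
    have : (0 : ℝ) ≤ ind (R2 q s0 s1 s2) / (q ^ 6 * H0 ^ 2) := by positivity
    have : (0 : ℝ) ≤ ind (R1 s0 s1 s2) / (q ^ 6 * H0) := by positivity
    linarith
  have hdvd := (ZMod.intCast_zmod_eq_zero_iff_dvd _ _).1 hd
  have hA : ∀ k : Fin 3 → ℤ, (k ≠ 0 ∧ hgt k ≤ 2 * r ^ 2 ∧
      (∀ l, (q : ℤ) ∣ dot (row s0 s1 s2 l) k) ∧ ∃ l, dot (row s0 s1 s2 l) k ≠ 0) →
      k ≠ 0 ∧ H0 ≤ hgt k ∧ hgt k ≤ 2 * r ^ 2 := fun k hk => by
    obtain ⟨l, hl⟩ := hk.2.2.2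
    exact ⟨hk.1, hgt_ge_of_nonexact (h0.1.row h1.1 h2.1 l) hY0 (hk.2.2.1 l) hl, hk.2.1⟩
  have hcast : ∀ k k' : Fin 3 → ℤ, (∀ l, (q : ℤ) ∣ dot (row s0 s1 s2 l) k) →
      (∀ l, (q : ℤ) ∣ dot (row s0 s1 s2 l) k') → ∀ l,
      red q s0 l * ((k 0 - k' 0 : ℤ) : ZMod q) + red q s1 l * ((k 1 - k' 1 : ℤ) : ZMod q)
        + red q s2 l * ((k 2 - k' 2 : ℤ) : ZMod q) = 0 := by
    intro k k' hk hk' l
    have a1 := (ZMod.intCast_zmod_eq_zero_iff_dvd _ _).2 (hk l)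
    have a2 := (ZMod.intCast_zmod_eq_zero_iff_dvd _ _).2 (hk' l)
    simp only [dot_row, red] at a1 a2 ⊢
    push_cast at a1 a2 ⊢
    linear_combination a1 - a2
  have e4 : 2 * (2 * r ^ 2) = 4 * r ^ 2 := by ring
  by_cases hr : red q (cr s0 s1) ≠ 0 ∨ red q (cr s0 s2) ≠ 0 ∨ red q (cr s1 s2) ≠ 0
  · have hb := costB hν h0 h1 h2 hY hm (by linarith) a b c hinj hbox hd 1 one_pos s0
      (by simpa using isCoprime_one_left) (2 / (q : ℝ) ^ 6)
      (16 * (24 / q ^ 2 + 6 / H0 ^ 2) * Hn (4 * r ^ 2)) (by positivity) (Pg_le6 hr)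
      (fun _ _ _ _ _ _ => by simp) ?_
    · refine hb.trans ?_
      have n1 : NG q T s0 s1 s2 := ⟨0, by simpa using hT0, by simpa using hdvd⟩
      have n2 : R2 q s0 s1 s2 := by
        refine ⟨hdvd, ?_⟩
        have z : ∀ z : Fin 3 → ℤ, red q z ≠ 0 → z ≠ 0 := fun z hz e => hz (by
          rw [e]; funext l; simp [red])
        rcases hr with h | h | h
        · exact Or.inl (z _ h)
        · exact Or.inr (Or.inl (z _ h))
        · exact Or.inr (Or.inr (z _ h))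
      rw [ind_pos n1, ind_pos n2]
      have e : 2 / (q : ℝ) ^ 6 * (18 * r ^ 2 / (1 : ℕ)) ^ 3 * (4 * mu ν ^ 3) *
          (432 * Hn (4 * r ^ 2) / m + 16 * (24 / q ^ 2 + 6 / H0 ^ 2) * Hn (4 * r ^ 2))
          = 3456 * (18 * r ^ 2) ^ 3 * mu ν ^ 3 * Hn (4 * r ^ 2) *
            (8 / 9 * (1 / q ^ 8) + 1 / (q ^ 6 * m) + 2 / 9 * (1 / (q ^ 6 * H0 ^ 2))) := by
        field_simp; ring
      rw [e]
      refine mul_le_mul_of_nonneg_left ?_ (by positivity)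
      have : (0 : ℝ) ≤ 1 / q ^ 8 := by positivity
      have : (0 : ℝ) ≤ 1 / (q ^ 6 * H0 ^ 2) := by positivity
      have : (0 : ℝ) ≤ ind (R1 s0 s1 s2) / (q ^ 6 * H0) := by positivity
      linarith
    · intro A hA'
      rw [← e4]
      have key : ∃ l, ∀ k ∈ A, ∀ k' ∈ A, k l = k' l → ∀ j, (q : ℤ) ∣ k j - k' j := by
        simp only [← cr_red] at hr
        rcases hr with h | h | h
        · refine ⟨2, fun k hk k' hk' e j => ?_⟩
          have := two_indep h fun l => by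
            simpa [e] using hcast k k' (hA' k hk).2.2.1 (hA' k' hk').2.2.1 l
          rw [← ZMod.intCast_zmod_eq_zero_iff_dvd]
          fin_cases j
          · simpa using this.1
          · simpa using this.2
          · simp [e]
        · refine ⟨1, fun k hk k' hk' e j => ?_⟩
          have := two_indep h fun l => by
            simpa [e] using hcast k k' (hA' k hk).2.2.1 (hA' k' hk').2.2.1 l
          rw [← ZMod.intCast_zmod_eq_zero_iff_dvd]
          fin_cases j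
          · simpa using this.1
          · simp [e]
          · simpa using this.2
        · refine ⟨0, fun k hk k' hk' e j => ?_⟩
          have := two_indep h fun l => by
            simpa [e] using hcast k k' (hA' k hk).2.2.1 (hA' k' hk').2.2.1 l
          rw [← ZMod.intCast_zmod_eq_zero_iff_dvd]
          fin_cases j
          · simp [e]
          · simpa using this.1
          · simpa using this.2
      obtain ⟨l, hl⟩ := key
      exact sum_rank2 A H0 hH0p _ q hq.pos (fun k hk => hA k (hA' k hk)) l hl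
  · push Not at hr
    have z : ∀ u u' : Fin 3 → ℤ, InBox Y u → InBox Y u' → red q (cr u u') = 0 → cr u u' = 0 := by
      intro u u' hu hu' e
      funext l
      apply eq_zero_of_cast (congrFun e l)
      have a1 := abs_le_hgt (cr u u') l
      have a2 : (hgt (cr u u') : ℤ) ≤ 2 * Y ^ 2 := by exact_mod_cast hu.hgt_cr_le hu'
      have a3 : (2 * Y ^ 2 : ℤ) < q := by exact_mod_cast hYq
      linarith
    have z01 := z _ _ h0.1 h1.1 hr.1
    have z02 := z _ _ h0.1 h2.1 hr.2.1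
    have z12 := z _ _ h1.1 h2.1 hr.2.2
    have hne := h0.cast_ne hYq'
    have hcop : IsCoprime (q : ℤ) (row s0 s1 s2 0 0) := by
      have hp : Prime (q : ℤ) := Nat.prime_iff_prime_int.1 hq
      exact (hp.irreducible.coprime_iff_not_dvd).2 fun h =>
        hne ((ZMod.intCast_zmod_eq_zero_iff_dvd _ _).2 h)
    have hb := costB hν h0 h1 h2 hY hm (by linarith) a b c hinj hbox hd q hq.pos
      (row s0 s1 s2 0) hcop (2 / (q : ℝ) ^ 3) (16 * (27 / H0) * Hn (4 * r ^ 2)) (by positivity)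
      (Pg_le3 hne) (fun _ _ _ h => Pg_rank1 h z01 z02 z12) ?_
    · refine hb.trans ?_
      rw [ind_pos (show R1 s0 s1 s2 from ⟨z01, z02⟩)]
      have e : 2 / (q : ℝ) ^ 3 * (18 * r ^ 2 / q) ^ 3 * (4 * mu ν ^ 3) *
          (432 * Hn (4 * r ^ 2) / m + 16 * (27 / H0) * Hn (4 * r ^ 2))
          = 3456 * (18 * r ^ 2) ^ 3 * mu ν ^ 3 * Hn (4 * r ^ 2) *
            (1 / (q ^ 6 * m) + 1 / (q ^ 6 * H0)) := by
        field_simp; ring
      rw [e]
      refine mul_le_mul_of_nonneg_left ?_ (by positivity)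
      have : (0 : ℝ) ≤ ind (NG q T s0 s1 s2) / q ^ 8 := by positivity
      have : (0 : ℝ) ≤ ind (R2 q s0 s1 s2) / (q ^ 6 * H0 ^ 2) := by positivity
      linarith
    · intro A hA'
      rw [← e4]
      refine sum_rank1 A H0 hH0p _ q ?_ (fun k hk => hA k (hA' k hk)) ?_
      · exact div_le_self hqR.le (by linarith)
      · intro k hk k' hk' e1 e2
        have := hcast k k' (hA' k hk).2.2.1 (hA' k' hk').2.2.1 0
        rw [e1, e2] at this
        simp only [sub_self, Int.cast_zero, mul_zero, add_zero] at this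
        rw [← ZMod.intCast_zmod_eq_zero_iff_dvd]
        exact (mul_eq_zero.1 this).resolve_left hne

end Vale.Agent.P036
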