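import Vale.Agent.P036.Core2
import Vale.Agent.P036.Alter

namespace Vale.Agent.P036

open Finset Vale.Agent.P047

lemma E_prod_mul {A B : Type*} [Fintype A] [Fintype B] (f : A → ℝ) (g : B → ℝ) :
    E (fun θ : A × B => f θ.1 * g θ.2) = E f * E g := by
  rw [E_prod (fun a b => f a * g b)]
  simp only [E_cmul, E_mulc]

/-- integer vectors of the sampling box -/
def vec (N : ℕ) (v : Fin 3 → Fin N) : Fin 3 → ℤ := ![N + (v 0 : ℕ), (v 1 : ℕ), (v 2 : ℕ)]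

lemma vec_inj {N : ℕ} {v w : Fin 3 → Fin N} (h : vec N v = vec N w) : v = w := by
  have h0 := congrFun h 0
  have h1 := congrFun h 1
  have h2 := congrFun h 2
  simp only [vec, Matrix.cons_val_zero, Matrix.cons_val_one, Matrix.cons_val] at h0 h1 h2
  exact vec_ext (Fin.ext (by omega)) (Fin.ext (by omega)) (Fin.ext (by omega))

/-- the shape of the sampling box -/
def Shape (N : ℕ) (z : Fin 3 → ℤ) : Prop :=
  N ≤ z 0 ∧ z 0 ≤ 2 * N ∧ 0 ≤ z 1 ∧ z 1 ≤ N ∧ 0 ≤ z 2 ∧ z 2 ≤ N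

lemma vec_shape {N : ℕ} (v : Fin 3 → Fin N) : Shape N (vec N v) := by
  have h0 := (v 0).2
  have h1 := (v 1).2
  have h2 := (v 2).2
  simp only [Shape, vec, Matrix.cons_val_zero, Matrix.cons_val_one, Matrix.cons_val]
  omega

lemma vec_box {N : ℕ} (v : Fin 3 → Fin N) : InBox (2 * N) (vec N v) := by
  obtain ⟨a, b, c, d, e, f⟩ := vec_shape v
  intro l
  push_cast
  fin_cases l <;> simp <;> constructor <;> omega

lemma count_res {q M : ℕ} [Fact q.Prime] (y : Fin 3 → ZMod q) :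
    (M : ℝ) ^ 3 ≤ ∑ v : Fin 3 → Fin (q * M), ind (y = red q (vec (q * M) v)) := by
  classical
  have hq : q.Prime := Fact.out
  rw [sum_ind]
  have hlt : ∀ (u : Fin 3 → Fin M) l, (y l).val + q * u l < q * M := fun u l => by
    have h1 := ZMod.val_lt (y l)
    have h2 : q * (u l + 1) ≤ q * M := Nat.mul_le_mul_left _ (u l).2
    nlinarith
  have := card_le_card_of_injOn (s := (univ : Finset (Fin 3 → Fin M)))
    (t := univ.filter fun v : Fin 3 → Fin (q * M) => y = red q (vec (q * M) v))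
    (fun u l => ⟨(y l).val + q * u l, hlt u l⟩) ?_ ?_
  · simp only [card_univ, Fintype.card_fun, Fintype.card_fin] at this
    exact_mod_cast this
  · intro u _
    simp only [coe_filter, mem_univ, true_and, Set.mem_ofPred_eq]
    apply vec_ext <;> simp [red, vec]
  · intro u _ u' _ e
    funext l
    have := congrArg Fin.val (congrFun e l)
    simp only [Nat.add_left_cancel_iff] at this
    exact Fin.ext (Nat.eq_of_mul_eq_mul_left hq.pos this)

lemma count_par {N : ℕ} (z : Fin 3 → ℤ) (hz : z 0 ≠ 0) :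
    ∑ v : Fin 3 → Fin N, ind (cr z (vec N v) = 0) ≤ N := by
  classical
  rw [sum_ind]
  have := card_le_card_of_injOn (s := univ.filter fun v : Fin 3 → Fin N => cr z (vec N v) = 0)
    (t := (univ : Finset (Fin N))) (fun v => v 0) (fun _ _ => mem_univ _) ?_
  · simp only [card_univ, Fintype.card_fin] at this
    exact_mod_cast this
  · intro v hv w hw e
    simp only [coe_filter, mem_univ, true_and, Set.mem_ofPred_eq, cr_eq_zero_iff] at hv hw
    have e' : vec N v 0 = vec N w 0 := by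
      have : v 0 = w 0 := e
      simp [vec, this]
    apply vec_inj
    funext j
    apply mul_left_cancel₀ hz
    rw [hv 0 j, hw 0 j, e']

lemma count_eq {N : ℕ} (a : ℤ) (ha : a ≠ 0) (z : Fin 3 → ℤ) :
    ∑ v : Fin 3 → Fin N, ind (∀ l, a * vec N v l = z l) ≤ 1 := by
  classical
  rw [sum_ind]
  have : (univ.filter fun v : Fin 3 → Fin N => ∀ l, a * vec N v l = z l).card ≤ 1 := by
    apply card_le_one.2
    intro v hv w hw
    apply vec_inj
    funext l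
    apply mul_left_cancel₀ ha
    rw [(mem_filter.1 hv).2 l, (mem_filter.1 hw).2 l]
  exact_mod_cast this

/-- the absolute constant of the construction -/
def KK : ℕ := 64 * 6 * 3456 * 72 ^ 3

section

variable {q m : ℕ} [Fact q.Prime] [Fact m.Prime] {Sg : Type*} [Fintype Sg]

/-- the points that survive for a given unimodular map and a given filter -/
def Vp (q : ℕ) [Fact q.Prime] (ν : ZMod m) (s : Sg → Fin 3 → ℤ) (N : ℕ)
    (θ : SL3 (ZMod q) × (Fin 3 ⊕ Fin 3 → T4 (ZMod m))) (ω : Sg × (Fin 3 → Fin N)) : Prop :=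
  act θ.1 (red q (s ω.1)) = red q (vec N ω.2) ∧ cone ν (app θ.2 (Phi m (s ω.1) (vec N ω.2)))

lemma core1 (ν : ZMod m) (s : Sg → Fin 3 → ℤ) {Y M N : ℕ} (hN : N = q * M)
    (hs : ∀ σ, SOK Y (s σ)) (hYm : Y < m) :
    (Fintype.card Sg : ℝ) * M ^ 3 * mu ν ≤ ∑ ω, E fun θ => ind (Vp q ν s N θ ω) := by
  have hμ := mu_pos ν
  have e : ∀ ω : Sg × (Fin 3 → Fin N), E (fun θ => ind (Vp q ν s N θ ω)) =
      E (fun g : SL3 (ZMod q) => ind (act g (red q (s ω.1)) = red q (vec N ω.2))) * mu ν := by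
    intro ω
    have hne : Phi m (s ω.1) (vec N ω.2) ≠ 0 := fun e =>
      (hs ω.1).cast_ne hYm (congrFun e (Sum.inl 0))
    rw [← filter1 ν hne, ← E_prod_mul]
    exact E_congr fun θ => ind_and _ _
  simp only [e]
  rw [← sum_mul, Fintype.sum_prod_type]
  refine mul_le_mul_of_nonneg_right ?_ hμ.le
  have : ∀ σ ∈ (univ : Finset Sg), (M : ℝ) ^ 3 ≤ ∑ v : Fin 3 → Fin N,
      E (fun g : SL3 (ZMod q) => ind (act g (red q (s σ)) = red q (vec N v))) := by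
    intro σ _
    rw [← E_sum, ← E_const (Ω := SL3 (ZMod q)) ((M : ℝ) ^ 3)]
    subst hN
    exact E_mono fun g => count_res _
  refine le_trans (le_of_eq ?_) (sum_le_sum this)
  simp

lemma core2 (ν : ZMod m) (s : Sg → Fin 3 → ℤ) {Y M N : ℕ} (hN : N = q * M) (hN0 : 0 < N)
    (hs : ∀ σ, SOK Y (s σ)) (hY0 : 0 < Y) (hYm : Y < m) (hYq' : Y < q) (hm : Y * (2 * N) < m) :
    ∑ p : (Sg × (Fin 3 → Fin N)) × (Sg × (Fin 3 → Fin N)), E (fun θ => ind (Vp q ν s N θ p.1 ∧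
      Vp q ν s N θ p.2 ∧ p.1 ≠ p.2 ∧ cr (vec N p.1.2) (vec N p.2.2) = 0))
      ≤ 4 * (Fintype.card Sg : ℝ) * (Fintype.card Sg * M ^ 3 * mu ν) := by
  have hqR : (0 : ℝ) < q := by exact_mod_cast (Fact.out : q.Prime).pos
  have hmR : (0 : ℝ) < m := by exact_mod_cast (Fact.out : m.Prime).pos
  have hμ := mu_pos ν
  have hμ1 := mu_le ν
  rw [card_cast] at hμ1
  have hNR : (N : ℝ) = q * M := by rw [hN]; push_cast; ring
  have c3 : mu ν * N ≤ 1 := by
    have : (N : ℝ) ≤ m := by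
      have : N ≤ m := by nlinarith
      exact_mod_cast this
    rw [le_div_iff₀ hmR] at hμ1
    nlinarith
  have e : ∀ p : (Sg × (Fin 3 → Fin N)) × (Sg × (Fin 3 → Fin N)), E (fun θ => ind (Vp q ν s N θ p.1 ∧
      Vp q ν s N θ p.2 ∧ p.1 ≠ p.2 ∧ cr (vec N p.1.2) (vec N p.2.2) = 0)) ≤
      2 / (q : ℝ) ^ 3 * (mu ν ^ 2 * ind (cr (vec N p.1.2) (vec N p.2.2) = 0) + mu ν *
        ind (∀ l, s p.1.1 0 * vec N p.2.2 l = s p.2.1 0 * vec N p.1.2 l)) := by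
    intro p
    by_cases hc : cr (vec N p.1.2) (vec N p.2.2) = 0
    swap
    · rw [E_congr (g := fun _ => 0) (fun θ => ind_neg fun h => hc h.2.2.2), E_zero]
      have := ind_nonneg (cr (vec N p.1.2) (vec N p.2.2) = 0)
      have := ind_nonneg (∀ l, s p.1.1 0 * vec N p.2.2 l = s p.2.1 0 * vec N p.1.2 l)
      positivity
    have a1 : E (fun θ => ind (Vp q ν s N θ p.1 ∧
        Vp q ν s N θ p.2 ∧ p.1 ≠ p.2 ∧ cr (vec N p.1.2) (vec N p.2.2) = 0)) ≤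
        E (fun g : SL3 (ZMod q) => ind (act g (red q (s p.1.1)) = red q (vec N p.1.2))) *
        E (fun L => ind (cone ν (app L (Phi m (s p.1.1) (vec N p.1.2))) ∧
          cone ν (app L (Phi m (s p.2.1) (vec N p.2.2))))) := by
      rw [← E_prod_mul]
      refine E_mono fun θ => ?_
      rw [← ind_and]
      exact ind_mono fun h => ⟨h.1.1, h.1.2, h.2.1.2⟩
    refine a1.trans (mul_le_mul ?_ ?_ (E_ind_nonneg _) (by positivity))
    · rw [← card_cast]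
      exact prob1 (a := red q (s p.1.1)) ((hs _).cast_ne hYq') _
    · rw [ind_pos hc, mul_one]
      by_cases hp : ∀ l, s p.1.1 0 * vec N p.2.2 l = s p.2.1 0 * vec N p.1.2 l
      · rw [ind_pos hp, mul_one]
        have hne : Phi m (s p.1.1) (vec N p.1.2) ≠ 0 := fun e =>
          (hs p.1.1).cast_ne hYm (congrFun e (Sum.inl 0))
        have := E_mono (f := fun L => ind (cone ν (app L (Phi m (s p.1.1) (vec N p.1.2))) ∧
          cone ν (app L (Phi m (s p.2.1) (vec N p.2.2))))) fun L => ind_mono fun h => h.1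
        rw [filter1 ν hne] at this
        nlinarith
      · rw [ind_neg hp, mul_zero, add_zero]
        exact (filter2 ν (indep_of_not_par (hs _) (hs _) (vec_box _) (vec_box _) hYm hm hp)).le
  refine (sum_le_sum fun p _ => e p).trans ?_
  rw [← mul_sum, Fintype.sum_prod_type]
  have b : ∀ ω ∈ (univ : Finset (Sg × (Fin 3 → Fin N))), ∑ ω' : Sg × (Fin 3 → Fin N),
      (mu ν ^ 2 * ind (cr (vec N ω.2) (vec N ω'.2) = 0) + mu ν *
        ind (∀ l, s ω.1 0 * vec N ω'.2 l = s ω'.1 0 * vec N ω.2 l)) ≤ Fintype.card Sg * (2 * mu ν) := by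
    intro ω _
    rw [Fintype.sum_prod_type]
    have : ∀ σ ∈ (univ : Finset Sg), ∑ v : Fin 3 → Fin N,
        (mu ν ^ 2 * ind (cr (vec N ω.2) (vec N v) = 0) + mu ν *
        ind (∀ l, s ω.1 0 * vec N v l = s σ 0 * vec N ω.2 l)) ≤ 2 * mu ν := by
      intro σ _
      rw [sum_add_distrib, ← mul_sum, ← mul_sum]
      have c0 : vec N ω.2 0 ≠ 0 := by
        have := (vec_shape ω.2).1
        omega
      have c1 := count_par (N := N) _ c0
      have c2 := count_eq (N := N) _ (hs ω.1).2.ne' (fun l => s σ 0 * vec N ω.2 l)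
      have c4 := mul_le_mul_of_nonneg_left c1 (sq_nonneg (mu ν))
      have c5 := mul_le_mul_of_nonneg_left c2 hμ.le
      nlinarith
    refine (sum_le_sum this).trans (le_of_eq ?_)
    simp
  refine (mul_le_mul_of_nonneg_left (sum_le_sum b) (by positivity)).trans (le_of_eq ?_)
  simp only [sum_const, card_univ, Fintype.card_prod, Fintype.card_fun, Fintype.card_fin,
    nsmul_eq_mul]
  push_cast
  rw [hNR]
  field_simp
  ring

lemma core3 {ν : ZMod m} (hν : ¬ IsSquare ν) (s : Sg → Fin 3 → ℤ) {Y M N : ℕ} (hN : N = q * M)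
    (hM0 : 0 < M) (T : ℤ) (hs : ∀ σ, SOK Y (s σ)) (hY0 : 0 < Y) (hYm : Y < m)
    (hm : Y * (2 * N) < m) (hT0 : 0 ≤ T) (hT : 2 * T < q) (hYq : 2 * Y ^ 2 < q) (β ℓ S : ℝ)
    (hS : S = Fintype.card Sg) (hβ : 0 ≤ β)
    (hNG : ∑ p : Sg × Sg × Sg, ind (NG q T (s p.1) (s p.2.1) (s p.2.2)) ≤ 3 * β * S ^ 3)
    (hπ : (q : ℝ) ^ 2 ≤ β * m)
    (hR2 : (∑ p : Sg × Sg × Sg, ind (R2 q (s p.1) (s p.2.1) (s p.2.2))) * (q : ℝ) ^ 2
      ≤ β * S ^ 3 * ((q : ℝ) / (3 * Y)) ^ 2)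
    (hR1 : (∑ p : Sg × Sg × Sg, ind (R1 (s p.1) (s p.2.1) (s p.2.2))) * (q : ℝ) ^ 2
      ≤ β * S ^ 3 * ((q : ℝ) / (3 * Y)))
    (hℓ : Hn (4 * (2 * N) ^ 2) ≤ ℓ) :
    ∑ p : (Sg × (Fin 3 → Fin N)) × (Sg × (Fin 3 → Fin N)) × (Sg × (Fin 3 → Fin N)),
      E (fun θ => ind (Vp q ν s N θ p.1 ∧ Vp q ν s N θ p.2.1 ∧ Vp q ν s N θ p.2.2 ∧
        C3 T (vec N p.1.2) (vec N p.2.1.2) (vec N p.2.2.2)))
      ≤ KK / 64 * (S * M ^ 3 * mu ν) ^ 3 * (β * ℓ * q / (q * M) ^ 3) := by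
  have hqR : (0 : ℝ) < q := by exact_mod_cast (Fact.out : q.Prime).pos
  have hmR : (0 : ℝ) < m := by exact_mod_cast (Fact.out : m.Prime).pos
  have hMR : (0 : ℝ) < M := by exact_mod_cast hM0
  have hYR : (0 : ℝ) < Y := by exact_mod_cast hY0
  have hμ := mu_pos ν
  have hNR : (N : ℝ) = q * M := by rw [hN]; push_cast; ring
  have hS0 : 0 ≤ S := by rw [hS]; positivity
  let e : (Sg × Sg × Sg) × ((Fin 3 → Fin N) × (Fin 3 → Fin N) × (Fin 3 → Fin N)) ≃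
      (Sg × (Fin 3 → Fin N)) × (Sg × (Fin 3 → Fin N)) × (Sg × (Fin 3 → Fin N)) :=
    { toFun := fun p => ((p.1.1, p.2.1), (p.1.2.1, p.2.2.1), (p.1.2.2, p.2.2.2))
      invFun := fun p => ((p.1.1, p.2.1.1, p.2.2.1), (p.1.2, p.2.1.2, p.2.2.2))
      left_inv := fun _ => rfl
      right_inv := fun _ => rfl }
  rw [← Equiv.sum_comp e, Fintype.sum_prod_type]
  have b : ∀ σ ∈ (univ : Finset (Sg × Sg × Sg)),
      ∑ y : (Fin 3 → Fin N) × (Fin 3 → Fin N) × (Fin 3 → Fin N),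
      E (fun θ => ind (Vp q ν s N θ (e (σ, y)).1 ∧ Vp q ν s N θ (e (σ, y)).2.1 ∧ Vp q ν s N θ (e (σ, y)).2.2 ∧
      C3 T (vec N (e (σ, y)).1.2) (vec N (e (σ, y)).2.1.2) (vec N (e (σ, y)).2.2.2))) ≤
      3456 * (18 * ((2 * N : ℕ) : ℝ) ^ 2) ^ 3 * mu ν ^ 3 * Hn (4 * (2 * N) ^ 2) *
      (ind (NG q T (s σ.1) (s σ.2.1) (s σ.2.2)) / q ^ 8 + 1 / (q ^ 6 * m)
        + ind (R2 q (s σ.1) (s σ.2.1) (s σ.2.2)) / (q ^ 6 * ((q : ℝ) / (3 * Y)) ^ 2)
        + ind (R1 (s σ.1) (s σ.2.1) (s σ.2.2)) / (q ^ 6 * ((q : ℝ) / (3 * Y)))) := by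
    intro σ _
    refine le_trans (le_of_eq ?_) (cost_le (q := q) hν (hs σ.1) (hs σ.2.1) (hs σ.2.2) hYm hm hT0
      hT hYq (fun y : (Fin 3 → Fin N) × (Fin 3 → Fin N) × (Fin 3 → Fin N) => vec N y.1)
      (fun y => vec N y.2.1) (fun y => vec N y.2.2)
      (fun y z a b c => Prod.ext (vec_inj a) (Prod.ext (vec_inj b) (vec_inj c)))
      fun y => ⟨vec_box _, vec_box _, vec_box _⟩)
    refine sum_congr rfl fun y _ => ?_
    rw [Pg, PL, ← E_prod_mul, ← E_cmul]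
    refine E_congr fun θ => ?_
    rw [← ind_and, ← ind_and]
    apply ind_congr
    simp only [Vp, e, Equiv.coe_fn_mk]
    tauto
  refine (sum_le_sum b).trans ?_
  rw [← mul_sum, sum_add_distrib, sum_add_distrib, sum_add_distrib, ← sum_div, ← sum_div,
    ← sum_div, ← sum_div]
  simp only [sum_const, card_univ, Fintype.card_prod, nsmul_eq_mul]
  push_cast
  rw [← hS]
  set H0 : ℝ := (q : ℝ) / (3 * Y) with hH0
  have hH0p : 0 < H0 := by positivity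
  have t1 : (∑ p : Sg × Sg × Sg, ind (NG q T (s p.1) (s p.2.1) (s p.2.2))) / (q : ℝ) ^ 8
      ≤ 3 * (β * S ^ 3 / q ^ 8) := by
    rw [← mul_div_assoc, ← mul_assoc]
    exact div_le_div_of_nonneg_right hNG (by positivity)
  have t2 : S * (S * S) * 1 / ((q : ℝ) ^ 6 * m) ≤ β * S ^ 3 / q ^ 8 := by
    rw [div_le_div_iff₀ (by positivity) (by positivity)]
    have := mul_le_mul_of_nonneg_left hπ (show 0 ≤ S ^ 3 * q ^ 6 by positivity)
    linarith
  have t3 : (∑ p : Sg × Sg × Sg, ind (R2 q (s p.1) (s p.2.1) (s p.2.2)))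
      / ((q : ℝ) ^ 6 * H0 ^ 2) ≤ β * S ^ 3 / q ^ 8 := by
    rw [div_le_div_iff₀ (by positivity) (by positivity)]
    have := mul_le_mul_of_nonneg_left hR2 (show 0 ≤ (q : ℝ) ^ 6 by positivity)
    linarith
  have t4 : (∑ p : Sg × Sg × Sg, ind (R1 (s p.1) (s p.2.1) (s p.2.2)))
      / ((q : ℝ) ^ 6 * H0) ≤ β * S ^ 3 / q ^ 8 := by
    rw [div_le_div_iff₀ (by positivity) (by positivity)]
    have := mul_le_mul_of_nonneg_left hR1 (show 0 ≤ (q : ℝ) ^ 6 by positivity)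
    linarith
  have hH := Hn_nonneg (4 * (2 * N) ^ 2)
  calc _ ≤ 3456 * (18 * (2 * (N : ℝ)) ^ 2) ^ 3 * mu ν ^ 3 * ℓ * (6 * (β * S ^ 3 / q ^ 8)) := by
        refine mul_le_mul (mul_le_mul_of_nonneg_left hℓ (by positivity)) (by linarith) ?_
          (mul_nonneg (by positivity) (hH.trans hℓ))
        have := sum_nonneg fun (p : Sg × Sg × Sg) (_ : p ∈ univ) =>
          ind_nonneg (NG q T (s p.1) (s p.2.1) (s p.2.2))
        have := sum_nonneg fun (p : Sg × Sg × Sg) (_ : p ∈ univ) =>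
          ind_nonneg (R2 q (s p.1) (s p.2.1) (s p.2.2))
        have := sum_nonneg fun (p : Sg × Sg × Sg) (_ : p ∈ univ) =>
          ind_nonneg (R1 (s p.1) (s p.2.1) (s p.2.2))
        positivity
    _ = _ := by
        rw [hNR, KK]
        push_cast
        field_simp
        ring

lemma core_num {x S n κ : ℝ} (hS : 1 ≤ S) (hn : 0 < n) (hx1 : 32 * S ≤ x / (2 * n))
    (hκ0 : 0 ≤ κ) (hκ : 64 * n ^ 2 * κ ≤ 1) :
    ∃ D : ℕ, 0 < D ∧ n ≤ x / D - 4 * S * x / D ^ 2 - x ^ 3 * κ / D ^ 3 := by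
  set D := ⌊x / (2 * n)⌋₊ with hD
  have hD1 : (D : ℝ) ≤ x / (2 * n) := Nat.floor_le (by linarith)
  have hD2 : x / (2 * n) < D + 1 := Nat.lt_floor_add_one _
  have hD3 : 16 * S ≤ D := by linarith
  have hDR : (0 : ℝ) < D := by linarith
  refine ⟨D, by exact_mod_cast hDR, ?_⟩
  set y := x / D with hy
  have y1 : 2 * n ≤ y := by
    rw [hy, le_div_iff₀ hDR]
    rw [le_div_iff₀ (by positivity)] at hD1
    linarith
  have y2 : y ≤ 4 * n := by
    rw [hy, div_le_iff₀ hDR]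
    rw [div_lt_iff₀ (by positivity)] at hD2
    nlinarith
  have y3 : 4 * S * x / D ^ 2 ≤ y / 4 := by
    have : 4 * S * x / D ^ 2 = y * (4 * S / D) := by rw [hy]; field_simp
    rw [this]
    have : 4 * S / D ≤ 1 / 4 := by rw [div_le_iff₀ hDR]; linarith
    nlinarith
  have y4 : x ^ 3 * κ / D ^ 3 ≤ y / 4 := by
    have e : x ^ 3 * κ / D ^ 3 = y / 4 * (4 * y ^ 2 * κ) := by
      rw [hy]; field_simp
    rw [e]
    have c1 : 4 * y ^ 2 ≤ 64 * n ^ 2 := by nlinarith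
    have c3 := mul_le_mul_of_nonneg_right c1 hκ0
    have c4 : 0 ≤ y / 4 := by linarith
    nlinarith
  linarith

end

theorem core {q m : ℕ} [Fact q.Prime] [Fact m.Prime] (hm2 : m ≠ 2) {Sg : Type*} [Fintype Sg]
    [Nonempty Sg] (s : Sg → Fin 3 → ℤ) {Y M : ℕ} (T : ℤ) (hs : ∀ σ, SOK Y (s σ))
    (hm : Y * (2 * (q * M)) < m) (hT0 : 0 ≤ T) (hT : 2 * T < q) (hYq : 2 * Y ^ 2 < q) (β ℓ : ℝ)
    (hβ : 0 ≤ β)
    (hNG : ∑ p : Sg × Sg × Sg, ind (NG q T (s p.1) (s p.2.1) (s p.2.2))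
      ≤ 3 * β * (Fintype.card Sg : ℝ) ^ 3)
    (hπ : (q : ℝ) ^ 2 ≤ β * m)
    (hR2 : (∑ p : Sg × Sg × Sg, ind (R2 q (s p.1) (s p.2.1) (s p.2.2))) * (q : ℝ) ^ 2
      ≤ β * (Fintype.card Sg : ℝ) ^ 3 * ((q : ℝ) / (3 * Y)) ^ 2)
    (hR1 : (∑ p : Sg × Sg × Sg, ind (R1 (s p.1) (s p.2.1) (s p.2.2))) * (q : ℝ) ^ 2
      ≤ β * (Fintype.card Sg : ℝ) ^ 3 * ((q : ℝ) / (3 * Y)))
    (hℓ : Hn (4 * (2 * (q * M)) ^ 2) ≤ ℓ) (n : ℕ) (hn : 0 < n) (h1 : 128 * n * m ≤ M ^ 3)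
    (h2 : (KK : ℝ) * n ^ 2 * β * ℓ * q ≤ ((q : ℝ) * M) ^ 3) :
    ∃ A : Finset (Fin 3 → ℤ), A.card = n ∧ (∀ v ∈ A, Shape (q * M) v) ∧
      (∀ v ∈ A, ∀ w ∈ A, v ≠ w → cr v w ≠ 0) ∧
      ∀ u ∈ A, ∀ v ∈ A, ∀ w ∈ A, u ≠ v → u ≠ w → v ≠ w → T < |det3 u v w| := by
  classical
  have hq : q.Prime := Fact.out
  have hmp : m.Prime := Fact.out
  have hqR : (0 : ℝ) < q := by exact_mod_cast hq.pos
  have hmR : (0 : ℝ) < m := by exact_mod_cast hmp.pos
  have hM0 : 0 < M := by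
    rcases Nat.eq_zero_or_pos M with rfl | h
    · have : 0 < 128 * n * m := by have := hmp.pos; positivity
      simp at h1; omega
    · exact h
  have hMR : (0 : ℝ) < M := by exact_mod_cast hM0
  obtain ⟨σ0⟩ := ‹Nonempty Sg›
  have hY0 : 0 < Y := by
    have := (hs σ0).2.trans_le ((hs σ0).1 0).2
    exact_mod_cast this
  have hYR : (0 : ℝ) < Y := by exact_mod_cast hY0
  have hN0 : 0 < q * M := Nat.mul_pos hq.pos hM0
  have hYm : Y < m := lt_of_le_of_lt (Nat.le_mul_of_pos_right _ (by omega)) hm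
  have hYq' : Y < q := by nlinarith
  obtain ⟨ν, hν⟩ : ∃ ν : ZMod m, ¬ IsSquare ν :=
    FiniteField.exists_nonsquare (by rwa [ZMod.ringChar_zmod_n])
  have hμ := mu_pos ν
  have hμ1 := mu_le ν
  have hμ2 := le_mu ν
  rw [card_cast] at hμ1 hμ2
  set N := q * M with hN
  have hNR : (N : ℝ) = q * M := by rw [hN]; push_cast; ring
  set S : ℝ := ((Fintype.card Sg : ℕ) : ℝ) with hS
  have hS1 : 1 ≤ S := by rw [hS]; exact_mod_cast Fintype.card_pos
  set x : ℝ := S * M ^ 3 * mu ν with hx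
  have hnR : (0 : ℝ) < n := by exact_mod_cast hn
  have hx1 : 32 * S ≤ x / (2 * n) := by
    rw [le_div_iff₀ (by positivity), hx]
    have a1 : (128 : ℝ) * n * m ≤ M ^ 3 := by exact_mod_cast h1
    have a2 : 1 ≤ 2 * m * mu ν := by
      rw [div_le_iff₀ (by positivity)] at hμ2; linarith
    have a3 : 64 * n ≤ (M : ℝ) ^ 3 * mu ν := by nlinarith
    nlinarith
  have hℓ0 : 0 ≤ ℓ := (Hn_nonneg _).trans hℓ
  obtain ⟨D, hD0, hD⟩ := core_num (κ := KK / 64 * (β * ℓ * q / (q * M) ^ 3)) hS1 hnR hx1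
    (by positivity) (by
      have e : 64 * (n : ℝ) ^ 2 * (KK / 64 * (β * ℓ * q / (q * M) ^ 3))
          = KK * n ^ 2 * β * ℓ * q / (q * M) ^ 3 := by ring
      rw [e, div_le_one (by positivity)]
      exact h2)
  obtain ⟨-, A, -, a2, a3, a4⟩ := alter_avg (Vp q ν s N)
    (fun a b => a ≠ b ∧ cr (vec N a.2) (vec N b.2) = 0)
    (fun a b c => C3 T (vec N a.2) (vec N b.2) (vec N c.2)) D hD0 (fun _ _ h => h.1)
    (fun a b c h => ⟨fun e => h.1 (by rw [e, cr_self]), fun e => h.2.1 (by rw [e, cr_self]),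
      fun e => h.2.2.1 (by rw [e, cr_self])⟩) _ _ _ (core1 ν s hN hs hYm)
    (core2 ν s hN hN0 hs hY0 hYm hYq' hm)
    (core3 hν s hN hM0 T hs hY0 hYm hm hT0 hT hYq β ℓ S hS hβ hNG hπ hR2 hR1 hℓ)
  have hA : n ≤ A.card := by
    rw [← hS, ← hx] at a4
    have e : x ^ 3 * (KK / 64 * (β * ℓ * q / (q * M) ^ 3))
        = KK / 64 * x ^ 3 * (β * ℓ * q / (q * M) ^ 3) := by ring
    rw [e] at hD
    exact_mod_cast hD.trans a4
  obtain ⟨B, hBA, hB⟩ := exists_subset_card_eq hA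
  have hcr : ∀ a ∈ B, ∀ b ∈ B, a ≠ b → cr (vec N a.2) (vec N b.2) ≠ 0 := fun a ha b hb hab h =>
    a2 a (hBA ha) b (hBA hb) ⟨hab, h⟩
  refine ⟨B.image fun a => vec N a.2, ?_, ?_, ?_, ?_⟩
  · rw [card_image_of_injOn, hB]
    intro a ha b hb e
    by_contra hab
    exact hcr a ha b hb hab (by
      have e' : vec N a.2 = vec N b.2 := e
      rw [e', cr_self])
  · intro v hv
    obtain ⟨a, -, rfl⟩ := mem_image.1 hv
    exact vec_shape _
  · intro v hv w hw hne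
    obtain ⟨a, ha, rfl⟩ := mem_image.1 hv
    obtain ⟨b, hb, rfl⟩ := mem_image.1 hw
    exact hcr a ha b hb fun e => hne (by rw [e])
  · intro u hu v hv w hw h1 h2 h3
    obtain ⟨a, ha, rfl⟩ := mem_image.1 hu
    obtain ⟨b, hb, rfl⟩ := mem_image.1 hv
    obtain ⟨c, hc, rfl⟩ := mem_image.1 hw
    by_contra hlt
    exact a3 a (hBA ha) b (hBA hb) c (hBA hc) ⟨hcr a ha b hb fun e => h1 (by rw [e]),
      hcr a ha c hc fun e => h2 (by rw [e]), hcr b hb c hc fun e => h3 (by rw [e]),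
      not_lt.1 hlt⟩

end Vale.Agent.P036
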