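import Vale.Agent.P036.Plane

namespace Vale.Agent.P036

open Finset

/-- all coordinates in `[0, r]` -/
def InBox (r : ℕ) (z : Fin 3 → ℤ) : Prop := ∀ l, 0 ≤ z l ∧ z l ≤ r

lemma InBox.hgt_le {r : ℕ} {z : Fin 3 → ℤ} (h : InBox r z) : hgt z ≤ r := by
  have : (hgt z : ℤ) ≤ r := Vale.Agent.P036.hgt_le fun l => by
    have := h l
    rw [abs_le]; constructor <;> linarith [this.1, this.2]
  exact_mod_cast this

lemma InBox.hgt_sub_le {r : ℕ} {z z' : Fin 3 → ℤ} (h : InBox r z) (h' : InBox r z') :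
    hgt (z - z') ≤ r := by
  have : (hgt (z - z') : ℤ) ≤ r := Vale.Agent.P036.hgt_le fun l => by
    have a := h l
    have b := h' l
    rw [abs_le, Pi.sub_apply]; constructor <;> linarith [a.1, a.2, b.1, b.2]
  exact_mod_cast this

lemma InBox.hgt_cr_le {r : ℕ} {z z' : Fin 3 → ℤ} (h : InBox r z) (h' : InBox r z') :
    hgt (cr z z') ≤ 2 * r ^ 2 := by
  have a := Vale.Agent.P036.hgt_cr_le z z'
  have b : (hgt z : ℤ) ≤ r := by exact_mod_cast h.hgt_le
  have c : (hgt z' : ℤ) ≤ r := by exact_mod_cast h'.hgt_le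
  have d : (hgt z : ℤ) * hgt z' ≤ r * r := mul_le_mul b c (by positivity) (by positivity)
  have : (hgt (cr z z') : ℤ) ≤ 2 * r ^ 2 := by nlinarith
  exact_mod_cast this

lemma sum_all (A : Finset (Fin 3 → ℤ)) (H1 : ℕ) (hA : ∀ k ∈ A, k ≠ 0 ∧ hgt k ≤ H1) :
    ∑ k ∈ A, (1 : ℝ) / (hgt k : ℝ) ^ 3 ≤ 432 * Hn (2 * H1) := by
  classical
  have := layer_cake A 0 27 (by norm_num) H1
    (fun k hk => ⟨(hA k hk).1, by positivity, (hA k hk).2⟩) ?_
  · linarith
  intro m hm _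
  have h := box_count (A.filter fun k => hgt k ≤ m) m 1 one_pos (fun _ => True)
    (fun k hk => (mem_filter.1 hk).2) (fun _ _ _ _ _ _ => by simp)
  simp only [if_true, prod_const, card_univ, Fintype.card_fin] at h
  have hm' : (1 : ℝ) ≤ m := by exact_mod_cast hm
  have : (2 * m + 1 : ℝ) ^ 3 ≤ (3 * m) ^ 3 := pow_le_pow_left₀ (by positivity) (by linarith) 3
  nlinarith

lemma sum_rank2 (A : Finset (Fin 3 → ℤ)) (H0 : ℝ) (hH0 : 0 < H0) (H1 q : ℕ) (hq : 0 < q)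
    (hA : ∀ k ∈ A, k ≠ 0 ∧ H0 ≤ hgt k ∧ hgt k ≤ H1) (l : Fin 3)
    (hl : ∀ k ∈ A, ∀ k' ∈ A, k l = k' l → ∀ j, (q : ℤ) ∣ k j - k' j) :
    ∑ k ∈ A, (1 : ℝ) / (hgt k : ℝ) ^ 3 ≤ 16 * (24 / q ^ 2 + 6 / H0 ^ 2) * Hn (2 * H1) := by
  classical
  have hqR : (0 : ℝ) < q := by exact_mod_cast hq
  apply layer_cake A H0 _ (by positivity) H1 hA
  intro m hm hH
  have h := box_count (A.filter fun k => hgt k ≤ m) m q hq (fun j => j = l)
    (fun k hk => (mem_filter.1 hk).2)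
    (fun k hk k' hk' h => hl k (mem_filter.1 hk).1 k' (mem_filter.1 hk').1 (h l rfl))
  have e : (∏ j : Fin 3, if j = l then (2 * m + 1 : ℝ) else 2 * m / q + 1)
      = (2 * m + 1) * (2 * m / q + 1) ^ 2 := by
    fin_cases l <;> simp [Fin.prod_univ_three] <;> ring
  rw [e] at h
  have hm' : (1 : ℝ) ≤ m := by exact_mod_cast hm
  refine h.trans ?_
  have a1 : (2 * m / q + 1 : ℝ) ^ 2 ≤ 8 * m ^ 2 / q ^ 2 + 2 := by
    have : (8 : ℝ) * m ^ 2 / q ^ 2 = 2 * (2 * m / q) ^ 2 := by field_simp; ring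
    rw [this]
    nlinarith [sq_nonneg (2 * (m : ℝ) / q - 1)]
  have a2 : (1 : ℝ) ≤ m ^ 2 / H0 ^ 2 := by
    rw [le_div_iff₀ (by positivity), one_mul]
    exact pow_le_pow_left₀ hH0.le hH 2
  calc (2 * m + 1 : ℝ) * (2 * m / q + 1) ^ 2 ≤ (3 * m) * (8 * m ^ 2 / q ^ 2 + 2 * (m ^ 2 / H0 ^ 2)) :=
        mul_le_mul (by linarith) (by linarith) (by positivity) (by positivity)
    _ = (24 / q ^ 2 + 6 / H0 ^ 2) * m ^ 3 := by ring

lemma sum_rank1 (A : Finset (Fin 3 → ℤ)) (H0 : ℝ) (hH0 : 0 < H0) (H1 q : ℕ) (hq : H0 ≤ q)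
    (hA : ∀ k ∈ A, k ≠ 0 ∧ H0 ≤ hgt k ∧ hgt k ≤ H1)
    (hl : ∀ k ∈ A, ∀ k' ∈ A, k 1 = k' 1 → k 2 = k' 2 → (q : ℤ) ∣ k 0 - k' 0) :
    ∑ k ∈ A, (1 : ℝ) / (hgt k : ℝ) ^ 3 ≤ 16 * (27 / H0) * Hn (2 * H1) := by
  classical
  have hqR : (0 : ℝ) < q := hH0.trans_le hq
  have hq0 : 0 < q := by exact_mod_cast hqR
  apply layer_cake A H0 _ (by positivity) H1 hA
  intro m hm hH
  have h := box_count (A.filter fun k => hgt k ≤ m) m q hq0 (fun j => j ≠ 0)
    (fun k hk => (mem_filter.1 hk).2) (fun k hk k' hk' h j => by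
      have h1 := h 1 (by decide)
      have h2 := h 2 (by decide)
      fin_cases j
      · exact hl k (mem_filter.1 hk).1 k' (mem_filter.1 hk').1 h1 h2
      · simp [h1]
      · simp [h2])
  have e : (∏ j : Fin 3, if j ≠ 0 then (2 * m + 1 : ℝ) else 2 * m / q + 1)
      = (2 * m + 1) ^ 2 * (2 * m / q + 1) := by
    simp [Fin.prod_univ_three]; ring
  rw [e] at h
  have hm' : (1 : ℝ) ≤ m := by exact_mod_cast hm
  refine h.trans ?_
  have a1 : (2 * m / q : ℝ) ≤ 2 * (m / H0) := by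
    rw [mul_div_assoc]
    exact mul_le_mul_of_nonneg_left (div_le_div_of_nonneg_left (by positivity) hH0 hq) (by norm_num)
  have a2 : (1 : ℝ) ≤ m / H0 := by rw [le_div_iff₀ hH0]; linarith
  calc (2 * m + 1 : ℝ) ^ 2 * (2 * m / q + 1) ≤ (3 * m) ^ 2 * (3 * (m / H0)) :=
        mul_le_mul (pow_le_pow_left₀ (by positivity) (by linarith) 2) (by linarith)
          (by positivity) (by positivity)
    _ = 27 / H0 * m ^ 3 := by ring

lemma card_le_of_fiber {α : Type*} (M : Finset α) (P : α → (Fin 3 → ℤ) → Prop)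
    (hP : ∀ x ∈ M, ∃ k, P x k) (c S : ℝ) (hc : 0 ≤ c)
    (hfib : ∀ k (F : Finset α), F ⊆ M → F.Nonempty → (∀ x ∈ F, P x k) →
      (F.card : ℝ) ≤ c / (hgt k : ℝ) ^ 3)
    (hsum : ∀ A : Finset (Fin 3 → ℤ), (∀ k ∈ A, ∃ x ∈ M, P x k) →
      ∑ k ∈ A, (1 : ℝ) / (hgt k : ℝ) ^ 3 ≤ S) : (M.card : ℝ) ≤ c * S := by
  classical
  have : ∀ x, ∃ k, x ∈ M → P x k := fun x => by
    by_cases hx : x ∈ M
    · obtain ⟨k, hk⟩ := hP x hx
      exact ⟨k, fun _ => hk⟩
    · exact ⟨0, fun h => absurd h hx⟩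
  choose κ hκ using this
  rw [card_eq_sum_card_image κ M]
  push_cast
  have h1 := hsum (M.image κ) fun k hk => by
    obtain ⟨x, hx, rfl⟩ := mem_image.1 hk
    exact ⟨x, hx, hκ x hx⟩
  refine le_trans ?_ (mul_le_mul_of_nonneg_left h1 hc)
  rw [mul_sum]
  refine sum_le_sum fun k hk => ?_
  obtain ⟨x, hx, rfl⟩ := mem_image.1 hk
  rw [mul_one_div]
  refine hfib _ _ (filter_subset _ _) ⟨x, mem_filter.2 ⟨hx, rfl⟩⟩ fun y hy => ?_
  obtain ⟨hy1, hy2⟩ := mem_filter.1 hy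
  rw [← hy2]; exact hκ y hy1

lemma triple_card {α β : Type*} [DecidableEq β] (F : Finset α) (a b c : α → β)
    (hinj : ∀ x ∈ F, ∀ y ∈ F, a x = a y → b x = b y → c x = c y → x = y) (B : ℝ) (hB : 0 ≤ B)
    (ha : ((F.image a).card : ℝ) ≤ B) (hb : ((F.image b).card : ℝ) ≤ B)
    (hc : ∀ x ∈ F, (((F.filter fun y => a y = a x ∧ b y = b x).image c).card : ℝ) ≤ B) :
    (F.card : ℝ) ≤ B ^ 3 := by
  classical
  have h1 : F.card ≤ ⌊B⌋₊ * (F.image fun x => (a x, b x)).card := by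
    apply card_le_mul_card_image
    intro p hp
    obtain ⟨x, hx, rfl⟩ := mem_image.1 hp
    apply Nat.le_floor
    refine le_trans (le_of_eq ?_) (hc x hx)
    rw [card_image_of_injOn]
    · congr 2
      ext y; simp
    · intro y hy z hz e
      simp only [coe_filter, Set.mem_setOf_eq] at hy hz
      exact hinj y hy.1 z hz.1 (hy.2.1.trans hz.2.1.symm) (hy.2.2.trans hz.2.2.symm) e
  have h2 : (F.image fun x => (a x, b x)).card ≤ (F.image a).card * (F.image b).card := by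
    rw [← card_product]
    apply card_le_card
    intro p hp
    obtain ⟨x, hx, rfl⟩ := mem_image.1 hp
    exact mem_product.2 ⟨mem_image_of_mem _ hx, mem_image_of_mem _ hx⟩
  have h3 : (F.card : ℝ) ≤ ⌊B⌋₊ * ((F.image a).card * (F.image b).card) := by
    exact_mod_cast h1.trans (Nat.mul_le_mul_left _ h2)
  have h4 : (⌊B⌋₊ : ℝ) ≤ B := Nat.floor_le hB
  calc (F.card : ℝ) ≤ B * (B * B) :=
        h3.trans (mul_le_mul h4 (mul_le_mul ha hb (by positivity) hB) (by positivity) hB)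
    _ = B ^ 3 := by ring

/-- integer matrices in a box with given determinant -/
lemma matrix_count {α : Type*} (M : Finset α) (a b c : α → Fin 3 → ℤ) (r : ℕ) (t : ℤ)
    (hinj : ∀ x ∈ M, ∀ y ∈ M, a x = a y → b x = b y → c x = c y → x = y)
    (hbox : ∀ x ∈ M, InBox r (a x) ∧ InBox r (b x) ∧ InBox r (c x))
    (hM : ∀ x ∈ M, cr (a x) (b x) ≠ 0 ∧ det3 (a x) (b x) (c x) = t) :
    (M.card : ℝ) ≤ (18 * r ^ 2) ^ 3 * (432 * Hn (4 * r ^ 2)) := by
  classical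
  apply card_le_of_fiber M
    (fun x k => Prim k ∧ hgt k ≤ 2 * r ^ 2 ∧ ∃ j : ℤ, j ≠ 0 ∧ cr (a x) (b x) = j • k)
  · intro x hx
    obtain ⟨k, j, hk, hj, e, hh⟩ := exists_prim (hM x hx).1
    exact ⟨k, hk, hh.trans ((hbox x hx).1.hgt_cr_le (hbox x hx).2.1), j, hj, e⟩
  · positivity
  · intro k F hF ⟨x0, hx0⟩ hP
    have hk := (hP x0 hx0).1
    have hperp : ∀ x ∈ F, dot (a x) k = 0 ∧ dot (b x) k = 0 := by
      intro x hx
      obtain ⟨-, -, j, hj, e⟩ := hP x hx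
      have h1 := dot_cr_left (a x) (b x)
      have h2 := dot_cr_right (a x) (b x)
      rw [e, dot_comm, dot_smul_left, dot_comm] at h1 h2
      exact ⟨(mul_eq_zero.1 h1).resolve_left hj, (mul_eq_zero.1 h2).resolve_left hj⟩
    have key : ∀ A : Finset (Fin 3 → ℤ), (∀ z ∈ A, InBox r z) →
        (∀ z ∈ A, ∀ z' ∈ A, dot (z - z') k = 0) → (A.card : ℝ) ≤ 18 * r ^ 2 / hgt k := by
      intro A h1 h2
      have := plane_count hk 1 one_pos (fun z => dot z k = 0) (fun _ h => h)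
        (fun _ _ _ _ _ => by simp) r (hperp x0 hx0).1 (hperp x0 hx0).2
        (hbox x0 (hF hx0)).1.hgt_le (hbox x0 (hF hx0)).2.1.hgt_le (hM x0 (hF hx0)).1 A
        fun z hz z' hz' => ⟨h2 z hz z' hz', (h1 z hz).hgt_sub_le (h1 z' hz')⟩
      simpa using this
    rw [← div_pow]
    apply triple_card F a b c (fun x hx y hy => hinj x (hF hx) y (hF hy)) _ (by positivity)
    · apply key
      · intro z hz
        obtain ⟨x, hx, rfl⟩ := mem_image.1 hz
        exact (hbox x (hF hx)).1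
      · intro z hz z' hz'
        obtain ⟨x, hx, rfl⟩ := mem_image.1 hz
        obtain ⟨y, hy, rfl⟩ := mem_image.1 hz'
        rw [dot_sub_left, (hperp x hx).1, (hperp y hy).1, sub_self]
    · apply key
      · intro z hz
        obtain ⟨x, hx, rfl⟩ := mem_image.1 hz
        exact (hbox x (hF hx)).2.1
      · intro z hz z' hz'
        obtain ⟨x, hx, rfl⟩ := mem_image.1 hz
        obtain ⟨y, hy, rfl⟩ := mem_image.1 hz'
        rw [dot_sub_left, (hperp x hx).2, (hperp y hy).2, sub_self]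
    · intro x hx
      apply key
      · intro z hz
        obtain ⟨y, hy, rfl⟩ := mem_image.1 hz
        exact (hbox y (hF (mem_filter.1 hy).1)).2.2
      · intro z hz z' hz'
        obtain ⟨y, hy, rfl⟩ := mem_image.1 hz
        obtain ⟨y', hy', rfl⟩ := mem_image.1 hz'
        obtain ⟨hy1, hy2, hy3⟩ := mem_filter.1 hy
        obtain ⟨hy1', hy2', hy3'⟩ := mem_filter.1 hy'
        obtain ⟨-, -, j, hj, e⟩ := hP x hx
        have h1 := (hM y (hF hy1)).2
        have h2 := (hM y' (hF hy1')).2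
        rw [det3, hy2, hy3, e, dot_smul_left] at h1
        rw [det3, hy2', hy3', e, dot_smul_left] at h2
        rw [dot_sub_left, dot_comm (c y), dot_comm (c y')]
        apply (mul_eq_zero.1 _).resolve_left hj
        linear_combination h1 - h2
  · intro A hA
    have := sum_all A (2 * r ^ 2) fun k hk => by
      obtain ⟨x, -, h1, h2, -⟩ := hA k hk
      exact ⟨h1.ne_zero, h2⟩
    rwa [show 2 * (2 * r ^ 2) = 4 * r ^ 2 by ring] at this

end Vale.Agent.P036
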