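import Vale.Agent.P036.Vec

namespace Vale.Agent.P036

open Finset

/-- `a` is within `ε` of `x` modulo `q` -/
def Near (q : ℕ) (a : ℤ) (x ε : ℝ) : Prop := ∃ k : ℤ, |(a : ℝ) - k * q - x| ≤ ε

lemma Near.add {q : ℕ} {a b : ℤ} {x y ε η : ℝ} (h : Near q a x ε) (h' : Near q b y η) :
    Near q (a + b) (x + y) (ε + η) := by
  obtain ⟨k, hk⟩ := h
  obtain ⟨l, hl⟩ := h'
  refine ⟨k + l, ?_⟩
  push_cast
  rw [abs_le] at *
  constructor <;> linarith [hk.1, hk.2, hl.1, hl.2]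

lemma Near.sub {q : ℕ} {a b : ℤ} {x y ε η : ℝ} (h : Near q a x ε) (h' : Near q b y η) :
    Near q (a - b) (x - y) (ε + η) := by
  obtain ⟨k, hk⟩ := h
  obtain ⟨l, hl⟩ := h'
  refine ⟨k - l, ?_⟩
  push_cast
  rw [abs_le] at *
  constructor <;> linarith [hk.1, hk.2, hl.1, hl.2]

lemma Near.mul {q : ℕ} {a c : ℤ} {x ε C : ℝ} (h : Near q a x ε) (hc : 0 ≤ c) (hC : (c : ℝ) ≤ C) :
    Near q (c * a) (c * x) (C * ε) := by
  obtain ⟨k, hk⟩ := h
  refine ⟨c * k, ?_⟩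
  have hc' : (0 : ℝ) ≤ c := by exact_mod_cast hc
  have : ((c * a : ℤ) : ℝ) - ((c * k : ℤ) : ℝ) * q - c * x = c * (a - k * q - x) := by
    push_cast; ring
  rw [this, abs_mul, abs_of_nonneg hc']
  exact mul_le_mul hC hk (abs_nonneg _) (hc'.trans hC)

lemma Near.sum {q : ℕ} {ι : Type*} (s : Finset ι) {a : ι → ℤ} {x : ι → ℝ} {ε : ℝ}
    (h : ∀ i ∈ s, Near q (a i) (x i) ε) : Near q (∑ i ∈ s, a i) (∑ i ∈ s, x i) (s.card * ε) := by
  classical
  induction s using Finset.induction_on with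
  | empty => exact ⟨0, by simp⟩
  | insert i s hi ih =>
    rw [sum_insert hi, sum_insert hi, card_insert_of_notMem hi]
    have := (h i (mem_insert_self _ _)).add (ih fun j hj => h j (mem_insert_of_mem hj))
    convert this using 1
    push_cast; ring

lemma Near.small {q : ℕ} {a : ℤ} {ε : ℝ} (h0 : 0 ≤ a) (h : (a : ℝ) ≤ ε) : Near q a 0 ε :=
  ⟨0, by
    have : (0 : ℝ) ≤ a := by exact_mod_cast h0
    simpa [abs_of_nonneg this] using h⟩

lemma Near.congr {q : ℕ} {a b : ℤ} {x y ε η : ℝ} (h : Near q a x ε) (e1 : a = b) (e2 : x = y)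
    (e3 : ε ≤ η) : Near q b y η := by
  obtain ⟨k, hk⟩ := h
  exact ⟨k, by rw [← e1, ← e2]; exact hk.trans e3⟩

lemma two_pow_ap {r s t : ℕ} (h : 2 ^ r + 2 ^ s = 2 * 2 ^ t) : r = s ∧ s = t := by
  have key : ∀ r s : ℕ, r < s → 2 ^ r + 2 ^ s ≠ 2 * 2 ^ t := by
    intro r s hrs e
    have h1 : 2 ^ r < 2 ^ s := Nat.pow_lt_pow_right (by norm_num) hrs
    have h2 : 0 < 2 ^ r := by positivity
    have h3 : 2 ^ s < 2 ^ (t + 1) := by rw [pow_succ]; omega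
    have h4 : 2 ^ (t + 1) < 2 ^ (s + 1) := by rw [pow_succ, pow_succ]; omega
    rw [Nat.pow_lt_pow_iff_right (by norm_num)] at h3 h4
    omega
  rcases lt_trichotomy r s with h' | h' | h'
  · exact absurd h (key r s h')
  · subst h'
    refine ⟨rfl, Nat.pow_right_injective (le_refl 2) ?_⟩
    simp only
    omega
  · exact absurd (by omega) (key s r h')

lemma prod_near {q X a δ i j : ℕ} (hX : 1 ≤ X) (hq : X ^ (a + δ + 2) ≤ q) (hi : i ≤ δ) :
    Near q ((X : ℤ) ^ (a + i) * ((q : ℤ) / (X : ℤ) ^ (a + j + 1)))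
      (if i = j then (q : ℝ) / X else 0) (q / X ^ 2) := by
  have hXR : (1 : ℝ) ≤ X := by exact_mod_cast hX
  have hXZ : (0 : ℤ) < (X : ℤ) ^ (a + j + 1) := by
    have : (0 : ℤ) < X := by exact_mod_cast hX
    positivity
  set γ : ℤ := (q : ℤ) / (X : ℤ) ^ (a + j + 1) with hγ
  have g0 : 0 ≤ γ := by rw [hγ]; positivity
  have g1 : γ * (X : ℤ) ^ (a + j + 1) ≤ q := Int.ediv_mul_le _ hXZ.ne'
  have g2 : (q : ℤ) < (γ + 1) * (X : ℤ) ^ (a + j + 1) := Int.lt_ediv_add_one_mul_self _ hXZ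
  have g0' : (0 : ℝ) ≤ γ := by exact_mod_cast g0
  have g1' : (γ : ℝ) * (X : ℝ) ^ (a + j + 1) ≤ q := by exact_mod_cast g1
  have g2' : (q : ℝ) < (γ + 1) * (X : ℝ) ^ (a + j + 1) := by exact_mod_cast g2
  have hP : (X : ℝ) ^ (a + i) ≤ q / X ^ 2 := by
    rw [le_div_iff₀ (by positivity), ← pow_add]
    have : (X : ℝ) ^ (a + δ + 2) ≤ q := by exact_mod_cast hq
    exact (pow_le_pow_right₀ hXR (by omega)).trans this
  have hG : (0 : ℝ) < (X : ℝ) ^ (a + j + 1) := by positivity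
  have hP0 : (0 : ℝ) < (X : ℝ) ^ (a + i) := by positivity
  have main : |(X : ℝ) ^ (a + i) * γ - q * ((X : ℝ) ^ (a + i) / (X : ℝ) ^ (a + j + 1))|
      ≤ q / X ^ 2 := by
    have e : (X : ℝ) ^ (a + i) * γ - q * ((X : ℝ) ^ (a + i) / (X : ℝ) ^ (a + j + 1))
        = (X : ℝ) ^ (a + i) * (γ - q / (X : ℝ) ^ (a + j + 1)) := by ring
    have b1 : (γ : ℝ) ≤ q / (X : ℝ) ^ (a + j + 1) := (le_div_iff₀ hG).2 g1'
    have b2 : q / (X : ℝ) ^ (a + j + 1) < γ + 1 := (div_lt_iff₀ hG).2 g2'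
    have b3 : |γ - q / (X : ℝ) ^ (a + j + 1)| ≤ 1 := by rw [abs_le]; constructor <;> linarith
    rw [e, abs_mul, abs_of_pos hP0]
    nlinarith
  rcases lt_trichotomy i j with h | h | h
  · rw [if_neg h.ne]
    apply Near.small (by positivity)
    push_cast
    rw [le_div_iff₀ (by positivity)]
    refine le_trans ?_ g1'
    have : (X : ℝ) ^ (a + i) * X ^ 2 ≤ (X : ℝ) ^ (a + j + 1) := by
      rw [← pow_add]; exact pow_le_pow_right₀ hXR (by omega)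
    nlinarith
  · rw [if_pos h]
    refine ⟨0, ?_⟩
    subst h
    have e : (X : ℝ) ^ (a + i) / (X : ℝ) ^ (a + i + 1) = 1 / X := by
      rw [pow_succ]; field_simp
    rw [e, mul_one_div] at main
    simpa using main
  · rw [if_neg h.ne']
    obtain ⟨k, rfl⟩ := Nat.exists_eq_add_of_lt h
    refine ⟨(X : ℤ) ^ k, ?_⟩
    have e : (X : ℝ) ^ (a + (j + k + 1)) / (X : ℝ) ^ (a + j + 1) = X ^ k := by
      rw [show a + (j + k + 1) = (a + j + 1) + k by ring, pow_add]; field_simp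
    rw [e, mul_comm (q : ℝ)] at main
    simpa using main

lemma sum_digit_le {R : ℕ} (d c : Fin R → ℤ) (p C : ℤ) (hd : ∀ r, 0 ≤ d r ∧ d r < p)
    (hc : ∀ r, 0 ≤ c r ∧ c r ≤ C) : 0 ≤ ∑ r, d r * c r ∧ ∑ r, d r * c r ≤ R * p * C := by
  refine ⟨sum_nonneg fun r _ => mul_nonneg (hd r).1 (hc r).1, ?_⟩
  have : ∀ r ∈ (univ : Finset (Fin R)), d r * c r ≤ p * C := fun r _ =>
    mul_le_mul (hd r).2.le (hc r).2 (hc r).1 ((hd r).1.trans (hd r).2.le)
  refine (sum_le_sum this).trans (le_of_eq ?_)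
  simp; ring

/-- admissible free parts -/
def Free (F G : ℤ) (z : Fin 3 → ℤ) : Prop :=
  0 ≤ z 0 ∧ z 0 ≤ F ∧ 0 ≤ z 1 ∧ z 1 ≤ G ∧ 0 ≤ z 2 ∧ z 2 ≤ G

lemma digits {R p X α β q : ℕ} {L : Type*} (hX : 24 * ((R * p) ^ 3 + 3) ≤ X) (hpX : p ∣ X)
    (hq1 : X ^ (α + 2 * β + 4 * 2 ^ R + 8) < q) (hq2 : q ≤ 2 * X ^ (α + 2 * β + 4 * 2 ^ R + 8))
    (d : Fin R → L → Fin 3 → ℤ) (hd : ∀ r a l, 0 ≤ d r a l ∧ d r a l < p) :
    ∃ c : L → Fin 3 → ℤ, (∀ a l, 0 ≤ c a l) ∧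
      (∀ a, c a 0 + X ^ α ≤ X ^ (α + (2 * 2 ^ R + 3)) ∧ c a 1 + X ^ β ≤ X ^ (β + (2 * 2 ^ R + 3))
        ∧ c a 2 + X ^ β ≤ X ^ (β + (2 * 2 ^ R + 3))) ∧
      ∀ a0 a1 a2 z0 z1 z2, Free (X ^ α) (X ^ β) z0 → Free (X ^ α) (X ^ β) z1 →
        Free (X ^ α) (X ^ β) z2 → ¬ (p : ℤ) ∣ ∑ r, det3 (d r a0) (d r a1) (d r a2) →
        ∀ t : ℤ, (q : ℤ) ∣ t - det3 (c a0 + z0) (c a1 + z1) (c a2 + z2) → (q : ℤ) < 2 * X * |t| := by
  have hX1 : 1 ≤ X := by omega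
  have hXZ : (1 : ℤ) ≤ X := by exact_mod_cast hX1
  have hXR : (1 : ℝ) ≤ X := by exact_mod_cast hX1
  have hRp : 2 * (R * p) + 1 ≤ X := by
    have := Nat.le_self_pow (n := 3) (by norm_num) (R * p)
    omega
  have hRpZ : 2 * ((R : ℤ) * p) + 1 ≤ X := by exact_mod_cast hRp
  have hRp0 : (0 : ℤ) ≤ R * p := by positivity
  set δ := 2 ^ R with hδ
  have hδ1 : 1 ≤ δ := Nat.one_le_two_pow
  have he : ∀ r : Fin R, 1 ≤ 2 ^ (r : ℕ) ∧ 2 ^ (r : ℕ) ≤ δ := fun r =>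
    ⟨Nat.one_le_two_pow, Nat.pow_le_pow_right (by norm_num) r.2.le⟩
  set A := α + δ + 2 with hA
  set B := β + δ + 2 with hB
  let γ : Fin R → ℤ := fun r => (q : ℤ) / (X : ℤ) ^ (A + B + 2 * 2 ^ (r : ℕ) + 1)
  let c : L → Fin 3 → ℤ := fun a => ![∑ r, d r a 0 * (X : ℤ) ^ (A + 2 ^ (r : ℕ)),
    ∑ r, d r a 1 * (X : ℤ) ^ (B + 2 ^ (r : ℕ)), ∑ r, d r a 2 * γ r]
  have b0 : ∀ a, 0 ≤ c a 0 ∧ c a 0 ≤ R * p * (X : ℤ) ^ (A + δ) := fun a =>
    sum_digit_le _ _ _ _ (fun r => hd r a 0) fun r =>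
      ⟨by positivity, pow_le_pow_right₀ hXZ (by have := he r; omega)⟩
  have b1 : ∀ a, 0 ≤ c a 1 ∧ c a 1 ≤ R * p * (X : ℤ) ^ (B + δ) := fun a =>
    sum_digit_le _ _ _ _ (fun r => hd r a 1) fun r =>
      ⟨by positivity, pow_le_pow_right₀ hXZ (by have := he r; omega)⟩
  have b2 : ∀ a, 0 ≤ c a 2 ∧ c a 2 ≤ R * p * (2 * (X : ℤ) ^ (β + 2 * δ + 1)) := fun a =>
    sum_digit_le _ _ _ _ (fun r => hd r a 2) fun r => by
      refine ⟨by positivity, Int.ediv_le_of_le_mul (by positivity) ?_⟩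
      have : (q : ℤ) ≤ 2 * (X : ℤ) ^ (α + 2 * β + 4 * δ + 8) := by exact_mod_cast hq2
      refine this.trans ?_
      rw [mul_assoc, ← pow_add]
      exact mul_le_mul_of_nonneg_left (pow_le_pow_right₀ hXZ (by have := he r; omega))
        (by norm_num)
  have step : ∀ (y : ℤ) (i j k : ℕ), i ≤ j → j + 1 ≤ k → y ≤ R * p * (2 * (X : ℤ) ^ j) →
      y + X ^ i ≤ X ^ k := by
    intro y i j k hij hjk hy
    have a1 : (X : ℤ) ^ i ≤ X ^ j := pow_le_pow_right₀ hXZ hij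
    have a2 : (X : ℤ) ^ (j + 1) ≤ X ^ k := pow_le_pow_right₀ hXZ hjk
    have a3 : (0 : ℤ) ≤ X ^ j := by positivity
    rw [pow_succ] at a2
    nlinarith
  have hc : ∀ a, c a 0 + X ^ α ≤ X ^ (α + (2 * δ + 3)) ∧ c a 1 + X ^ β ≤ X ^ (β + (2 * δ + 3))
      ∧ c a 2 + X ^ β ≤ X ^ (β + (2 * δ + 3)) := fun a => by
    refine ⟨step _ _ (A + δ) _ (by omega) (by omega) ?_, step _ _ (B + δ) _ (by omega) (by omega) ?_,
      step _ _ (β + 2 * δ + 1) _ (by omega) (by omega) (b2 a).2⟩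
    · have : (0 : ℤ) ≤ R * p * X ^ (A + δ) := by positivity
      linarith [(b0 a).2]
    · have : (0 : ℤ) ≤ R * p * X ^ (B + δ) := by positivity
      linarith [(b1 a).2]
  refine ⟨c, fun a l => ?_, hc, ?_⟩
  · fin_cases l
    · exact (b0 a).1
    · exact (b1 a).1
    · exact (b2 a).1
  have hsmall : ∀ x y z : ℤ, ∀ i j k : ℕ, 0 ≤ x → 0 ≤ y → 0 ≤ z → x ≤ X ^ i → y ≤ X ^ j →
      z ≤ X ^ k → i + j + k = α + 2 * β + 4 * δ + 6 → Near q (x * y * z) 0 (q / X ^ 2) := by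
    intro x y z i j k hx hy hz hx' hy' hz' e
    apply Near.small (by positivity)
    rw [le_div_iff₀ (by positivity)]
    have a1 : x * y * z ≤ X ^ i * X ^ j * X ^ k :=
      mul_le_mul (mul_le_mul hx' hy' hy (by positivity)) hz' hz (by positivity)
    have a2 : x * y * z * X ^ 2 ≤ q := by
      have : (X : ℤ) ^ (α + 2 * β + 4 * δ + 8) < q := by exact_mod_cast hq1
      have e2 : (X : ℤ) ^ (α + 2 * β + 4 * δ + 8) = X ^ i * X ^ j * X ^ k * X ^ 2 := by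
        rw [← pow_add, ← pow_add, ← pow_add, e]
      have := mul_le_mul_of_nonneg_right a1 (show (0 : ℤ) ≤ X ^ 2 by positivity)
      linarith
    exact_mod_cast a2
  have hmain : ∀ a0 a1 a2, Near q (c a0 0 * c a1 1 * c a2 2)
      ((∑ r, d r a0 0 * d r a1 1 * d r a2 2 : ℤ) * ((q : ℝ) / X)) ((R * p) ^ 3 * (q / X ^ 2)) := by
    intro a0 a1 a2
    have h := Near.sum (q := q) (univ : Finset (Fin R × Fin R × Fin R))
      (a := fun i => (d i.1 a0 0 * d i.2.1 a1 1 * d i.2.2 a2 2) *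
        ((X : ℤ) ^ (A + B + (2 ^ (i.1 : ℕ) + 2 ^ (i.2.1 : ℕ))) * γ i.2.2))
      (x := fun i => ((d i.1 a0 0 * d i.2.1 a1 1 * d i.2.2 a2 2 : ℤ) : ℝ) *
        if 2 ^ (i.1 : ℕ) + 2 ^ (i.2.1 : ℕ) = 2 * 2 ^ (i.2.2 : ℕ) then (q : ℝ) / X else 0)
      (ε := p ^ 3 * (q / X ^ 2)) fun i _ => by
        have h1 := hd i.1 a0 0
        have h2 := hd i.2.1 a1 1
        have h3 := hd i.2.2 a2 2
        refine (prod_near (δ := 2 * δ) hX1 ?_ ?_).mul (mul_nonneg (mul_nonneg h1.1 h2.1) h3.1) ?_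
        · exact (Nat.pow_le_pow_right hX1 (by omega)).trans hq1.le
        · have := he i.1
          have := he i.2.1
          omega
        · have : d i.1 a0 0 * d i.2.1 a1 1 * d i.2.2 a2 2 ≤ p * p * p :=
            mul_le_mul (mul_le_mul h1.2.le h2.2.le h2.1 (by positivity)) h3.2.le h3.1
              (by positivity)
          have h' : ((d i.1 a0 0 * d i.2.1 a1 1 * d i.2.2 a2 2 : ℤ) : ℝ) ≤ p * p * p := by
            exact_mod_cast this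
          linarith [h', show (p : ℝ) ^ 3 = p * p * p by ring]
    refine h.congr ?_ ?_ (le_of_eq ?_)
    · simp only [c, Matrix.cons_val_zero, Matrix.cons_val_one, Matrix.cons_val]
      rw [mul_assoc, sum_mul_sum, sum_mul, Fintype.sum_prod_type]
      refine sum_congr rfl fun i _ => ?_
      rw [Fintype.sum_prod_type, mul_sum]
      refine sum_congr rfl fun j _ => ?_
      rw [mul_sum]
      refine sum_congr rfl fun l _ => ?_
      ring
    · rw [Int.cast_sum, sum_mul, Fintype.sum_prod_type]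
      refine sum_congr rfl fun i _ => ?_
      rw [sum_eq_single (i, i)]
      · simp [two_mul]
      · intro j _ hj
        rw [if_neg, mul_zero]
        intro e
        obtain ⟨e1, e2⟩ := two_pow_ap e
        exact hj (Prod.ext (Fin.ext e1.symm) (Fin.ext (e1.trans e2).symm))
      · simp
    · simp; ring
  have hfull : ∀ a0 a1 a2 z0 z1 z2, Free (X ^ α) (X ^ β) z0 → Free (X ^ α) (X ^ β) z1 →
      Free (X ^ α) (X ^ β) z2 → Near q ((c a0 + z0) 0 * (c a1 + z1) 1 * (c a2 + z2) 2)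
      ((∑ r, d r a0 0 * d r a1 1 * d r a2 2 : ℤ) * ((q : ℝ) / X))
      (((R * p) ^ 3 + 3) * (q / X ^ 2)) := by
    intro a0 a1 a2 z0 z1 z2 f0 f1 f2
    have p1 : (0 : ℤ) ≤ X ^ α := by positivity
    have p2 : (0 : ℤ) ≤ X ^ β := by positivity
    have n1 := hsmall (z0 0) (c a1 1 + z1 1) (c a2 2 + z2 2) α (β + (2 * δ + 3)) (β + (2 * δ + 3))
      f0.1 (add_nonneg (b1 a1).1 f1.2.2.1) (add_nonneg (b2 a2).1 f2.2.2.2.2.1) f0.2.1
      (by linarith [(hc a1).2.1, f1.2.2.2.1]) (by linarith [(hc a2).2.2, f2.2.2.2.2.2]) (by omega)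
    have n2 := hsmall (c a0 0) (z1 1) (c a2 2 + z2 2) (α + (2 * δ + 3)) β (β + (2 * δ + 3))
      (b0 a0).1 f1.2.2.1 (add_nonneg (b2 a2).1 f2.2.2.2.2.1) (by linarith [(hc a0).1]) f1.2.2.2.1
      (by linarith [(hc a2).2.2, f2.2.2.2.2.2]) (by omega)
    have n3 := hsmall (c a0 0) (c a1 1) (z2 2) (α + (2 * δ + 3)) (β + (2 * δ + 3)) β
      (b0 a0).1 (b1 a1).1 f2.2.2.2.2.1 (by linarith [(hc a0).1]) (by linarith [(hc a1).2.1])
      f2.2.2.2.2.2 (by omega)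
    refine ((((hmain a0 a1 a2).add n1).add n2).add n3).congr ?_ (by ring) (le_of_eq (by ring))
    simp only [Pi.add_apply]; ring
  intro a0 a1 a2 z0 z1 z2 f0 f1 f2 hJ t ht
  have hdet : Near q (det3 (c a0 + z0) (c a1 + z1) (c a2 + z2))
      ((∑ r, det3 (d r a0) (d r a1) (d r a2) : ℤ) * ((q : ℝ) / X)) (q / (4 * X)) := by
    refine ((((((hfull a0 a1 a2 z0 z1 z2 f0 f1 f2).sub (hfull a0 a2 a1 z0 z2 z1 f0 f2 f1)).sub
      (hfull a1 a0 a2 z1 z0 z2 f1 f0 f2)).add (hfull a1 a2 a0 z1 z2 z0 f1 f2 f0)).add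
      (hfull a2 a0 a1 z2 z0 z1 f2 f0 f1)).sub (hfull a2 a1 a0 z2 z1 z0 f2 f1 f0)).congr ?_ ?_ ?_
    · rw [det3_eq]; ring
    · rw [← sub_mul, ← sub_mul, ← add_mul, ← add_mul, ← sub_mul]
      congr 1
      push_cast
      simp only [← sum_add_distrib, ← sum_sub_distrib, det3_eq]
      push_cast
      exact sum_congr rfl fun i _ => by ring
    · have hXR' : (24 : ℝ) * ((R * p) ^ 3 + 3) ≤ X := by exact_mod_cast hX
      have e : (q : ℝ) / (4 * X) = X / 4 * (q / X ^ 2) := by field_simp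
      have : (0 : ℝ) ≤ q / X ^ 2 := by positivity
      rw [e]
      nlinarith
  obtain ⟨k, hk⟩ := hdet
  obtain ⟨j, hj⟩ := ht
  set J := ∑ r, det3 (d r a0) (d r a1) (d r a2) with hJdef
  have hne : (k + j) * X + J ≠ 0 := by
    intro e
    apply hJ
    have : J = -(k + j) * X := by linarith
    rw [this]
    exact Dvd.dvd.mul_left (Int.natCast_dvd_natCast.2 hpX) _
  have h1 : (1 : ℝ) ≤ |(((k + j) * X + J : ℤ) : ℝ)| := by exact_mod_cast Int.one_le_abs hne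
  have hqR : (0 : ℝ) < q := by
    have : 0 < q := by omega
    exact_mod_cast this
  have hj' : (t : ℝ) = det3 (c a0 + z0) (c a1 + z1) (c a2 + z2) + q * j := by
    have : t = det3 (c a0 + z0) (c a1 + z1) (c a2 + z2) + q * j := by linarith
    exact_mod_cast this
  have e : (((k + j) * X + J : ℤ) : ℝ) * (q / X)
      = t - ((det3 (c a0 + z0) (c a1 + z1) (c a2 + z2) : ℤ) - k * q - J * (q / X)) := by
    rw [hj']; push_cast; field_simp; ring
  have h2 : (q : ℝ) / X ≤ |(t : ℝ)| + q / (4 * X) := by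
    have a1 : (q : ℝ) / X ≤ |(((k + j) * X + J : ℤ) : ℝ) * (q / X)| := by
      rw [abs_mul, abs_of_pos (show (0 : ℝ) < q / X by positivity)]
      exact le_mul_of_one_le_left (by positivity) h1
    rw [e] at a1
    exact a1.trans ((abs_sub _ _).trans (by linarith))
  have h3 : (q : ℝ) < 2 * X * |(t : ℝ)| := by
    have e1 : (q : ℝ) / X = 4 * (q / (4 * X)) := by field_simp
    have e2 : (q : ℝ) = 4 * X * (q / (4 * X)) := by field_simp
    have : 0 < (q : ℝ) / (4 * X) := by positivity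
    nlinarith
  exact_mod_cast h3

end Vale.Agent.P036
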