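import Vale.Agent.P036.Vec

namespace Vale.Agent.P036

open Finset

/-- index set of the bilinear expansion of the norm of a difference -/
abbrev I0 := Equiv.Perm (Fin 7) × Finset (Fin 7)

lemma norm_rank {k K : Type*} [Field k] [Field K] [Algebra k K] (b : Module.Basis (Fin 7) k K) :
    ∃ φ ψ : I0 → K → k, ∀ x y, Algebra.norm k (y - x) = ∑ i, φ i x * ψ i y := by
  classical
  refine ⟨fun i x => ∏ j ∈ univ \ i.2, - Algebra.leftMulMatrix b x (i.1 j) j,
    fun i y => ((Equiv.Perm.sign i.1 : ℤ) : k) * ∏ j ∈ i.2, Algebra.leftMulMatrix b y (i.1 j) j,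
    fun x y => ?_⟩
  rw [Algebra.norm_eq_matrix_det b, map_sub, Matrix.det_apply', Fintype.sum_prod_type]
  refine sum_congr rfl fun σ _ => ?_
  simp only [Matrix.sub_apply, sub_eq_add_neg]
  rw [prod_add, powerset_univ, mul_sum]
  refine sum_congr rfl fun T _ => ?_
  ring

lemma labels : ∃ R : ℕ, ∀ p : ℕ, p.Prime → 3 < p →
    ∃ d : Fin R → Fin (p ^ 7) → Fin 3 → ℤ, (∀ r a l, 0 ≤ d r a l ∧ d r a l < p) ∧
      ∀ a b c, a ≠ b → a ≠ c → b ≠ c → ¬ (p : ℤ) ∣ ∑ r, det3 (d r a) (d r b) (d r c) := by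
  classical
  refine ⟨Fintype.card (I0 × I0 × I0), fun p hp hp3 => ?_⟩
  have : Fact p.Prime := ⟨hp⟩
  let K := GaloisField p 7
  have hfin : Module.finrank (ZMod p) K = 7 := GaloisField.finrank p (by norm_num)
  let b : Module.Basis (Fin 7) (ZMod p) K := Module.finBasisOfFinrankEq _ _ hfin
  obtain ⟨φ, ψ, hφ⟩ := norm_rank b
  have hcard : Nat.card K = p ^ 7 := GaloisField.card p 7 (by norm_num)
  let e : Fin (p ^ 7) ≃ K := (Finite.equivFinOfCardEq hcard).symm
  let u := (Fintype.equivFin (I0 × I0 × I0)).symm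
  let D : I0 × I0 × I0 → K → Fin 3 → ZMod p := fun i x =>
    ![φ i.1 x * φ i.2.1 x, ψ i.1 x * φ i.2.2 x, ψ i.2.1 x * ψ i.2.2 x]
  have hF : ∀ x y z : K, ∑ i, D i x 0 * D i y 1 * D i z 2
      = Algebra.norm (ZMod p) ((y - x) * (z - x) * (z - y)) := by
    intro x y z
    rw [map_mul, map_mul, hφ, hφ, hφ, mul_assoc, sum_mul_sum, sum_mul, Fintype.sum_prod_type]
    refine sum_congr rfl fun i _ => ?_
    rw [Fintype.sum_prod_type, mul_sum]
    refine sum_congr rfl fun j _ => ?_
    rw [mul_sum]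
    refine sum_congr rfl fun l _ => ?_
    simp only [D, Matrix.cons_val_zero, Matrix.cons_val_one, Matrix.cons_val]
    ring
  have hneg : ∀ x : K, Algebra.norm (ZMod p) (-x) = - Algebra.norm (ZMod p) x := by
    intro x
    rw [← neg_one_mul, map_mul, show (-1 : K) = algebraMap (ZMod p) K (-1) by simp,
      Algebra.norm_algebraMap, hfin]
    ring
  refine ⟨fun r a l => ((D (u r) (e a) l).val : ℤ), fun r a l => ⟨by positivity, ?_⟩, ?_⟩
  · exact Int.ofNat_lt.2 (ZMod.val_lt _)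
  intro a b c hab hac hbc hdvd
  rw [← ZMod.intCast_zmod_eq_zero_iff_dvd] at hdvd
  simp only [det3_eq] at hdvd
  push_cast at hdvd
  simp only [ZMod.natCast_val, ZMod.cast_id', id_eq] at hdvd
  set x := e a
  set y := e b
  set z := e c
  have hxy : y - x ≠ 0 := sub_ne_zero.2 fun h => hab (e.injective h).symm
  have hxz : z - x ≠ 0 := sub_ne_zero.2 fun h => hac (e.injective h).symm
  have hyz : z - y ≠ 0 := sub_ne_zero.2 fun h => hbc (e.injective h).symm
  rw [Equiv.sum_comp u (fun i => (D i x 1 * D i y 2 - D i x 2 * D i y 1) * D i z 0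
    + (D i x 2 * D i y 0 - D i x 0 * D i y 2) * D i z 1
    + (D i x 0 * D i y 1 - D i x 1 * D i y 0) * D i z 2)] at hdvd
  set W := (y - x) * (z - x) * (z - y) with hW
  have e1 := hF x y z
  have e2 := hF x z y
  have e3 := hF y x z
  have e4 := hF y z x
  have e5 := hF z x y
  have e6 := hF z y x
  rw [show (z - x) * (y - x) * (y - z) = -W by rw [hW]; ring, hneg] at e2
  rw [show (x - y) * (z - y) * (z - x) = -W by rw [hW]; ring, hneg] at e3
  rw [show (z - y) * (x - y) * (x - z) = W by rw [hW]; ring] at e4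
  rw [show (x - z) * (y - z) * (y - x) = W by rw [hW]; ring] at e5
  rw [show (y - z) * (x - z) * (x - y) = -W by rw [hW]; ring, hneg] at e6
  have h6 : (6 : ZMod p) * Algebra.norm (ZMod p) W = 0 := by
    rw [← hdvd]
    have : (6 : ZMod p) * Algebra.norm (ZMod p) W = (∑ i, D i x 0 * D i y 1 * D i z 2)
      - (∑ i, D i x 0 * D i z 1 * D i y 2) - (∑ i, D i y 0 * D i x 1 * D i z 2)
      + (∑ i, D i y 0 * D i z 1 * D i x 2) + (∑ i, D i z 0 * D i x 1 * D i y 2)
      - (∑ i, D i z 0 * D i y 1 * D i x 2) := by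
      rw [e1, e2, e3, e4, e5, e6]; ring
    rw [this]
    simp only [← sum_add_distrib, ← sum_sub_distrib]
    exact sum_congr rfl fun i _ => by ring
  rcases mul_eq_zero.1 h6 with h | h
  · have h' : ((6 : ℕ) : ZMod p) = 0 := by exact_mod_cast h
    rw [ZMod.natCast_eq_zero_iff] at h'
    rcases (Nat.Prime.dvd_mul hp).1 (show p ∣ 2 * 3 from h') with h'' | h''
    · have := Nat.le_of_dvd (by norm_num) h''
      omega
    · have := Nat.le_of_dvd (by norm_num) h''
      omega
  · exact mul_ne_zero (mul_ne_zero hxy hxz) hyz (Algebra.norm_eq_zero_iff.1 h)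

end Vale.Agent.P036
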