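import Vale.Agent.P036.Param

namespace Vale.Agent.P036

open Finset Vale.Agent.P047

lemma final_num {p q N n : ℕ} {D : ℤ} (hp : 256 * KK ≤ p) (hK : 1 ≤ KK) (hn : 0 < n)
    (h2 : p ^ 7 * N ^ 3 ≤ 8 * (KK * n ^ 2 * p * q)) (hD : (q : ℤ) / (2 * p ^ 4) < |D|) :
    (p : ℝ) / n ^ 2 * (16 * N ^ 3) ≤ |(D : ℝ)| := by
  have hp0 : 0 < p := by omega
  have hpZ : (0 : ℤ) < 2 * (p : ℤ) ^ 4 := by positivity
  have a1 : (q : ℤ) < (q / (2 * p ^ 4) + 1) * (2 * p ^ 4) := Int.lt_ediv_add_one_mul_self _ hpZ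
  have a2 : (q : ℤ) ≤ |D| * (2 * p ^ 4) := by nlinarith
  have a3 : (q : ℝ) ≤ |(D : ℝ)| * (2 * p ^ 4) := by exact_mod_cast a2
  have b1 : (p : ℝ) ^ 7 * N ^ 3 ≤ 8 * (KK * n ^ 2 * p * q) := by exact_mod_cast h2
  have b2 : 256 * (KK : ℝ) ≤ p := by exact_mod_cast hp
  have hpR : (0 : ℝ) < p := by exact_mod_cast hp0
  have hnR : (0 : ℝ) < n := by exact_mod_cast hn
  rw [div_mul_eq_mul_div, div_le_iff₀ (by positivity)]
  apply le_of_mul_le_mul_left (a := (p : ℝ) ^ 6) _ (by positivity)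
  calc (p : ℝ) ^ 6 * ((p : ℝ) * (16 * (N : ℝ) ^ 3)) = 16 * ((p : ℝ) ^ 7 * N ^ 3) := by ring
    _ ≤ 16 * (8 * ((KK : ℝ) * n ^ 2 * p * q)) := by gcongr
    _ ≤ 16 * (8 * (KK * n ^ 2 * p * (|(D : ℝ)| * (2 * p ^ 4)))) := by gcongr
    _ = 256 * KK * (p ^ 5 * (|(D : ℝ)| * n ^ 2)) := by ring
    _ ≤ p * (p ^ 5 * (|(D : ℝ)| * n ^ 2)) := by gcongr
    _ = _ := by ring

lemma aux_T {q X : ℤ} (hq : 0 < q) (hX : 2 ≤ X) : 2 * (q / (2 * X)) < q := by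
  have b1 : q / (2 * X) * (2 * X) ≤ q := Int.ediv_mul_le _ (by omega)
  have b2 : 0 ≤ q / (2 * X) := Int.ediv_nonneg hq.le (by omega)
  nlinarith

lemma aux_pi {p q M Y m : ℕ} (hp : 0 < p) (hpq : p ^ 6 ≤ q) (m3 : q ^ 7 ≤ M) (hY : 0 < Y)
    (hm1 : Y * (2 * (q * M)) < m) : (q : ℝ) ^ 2 ≤ 1 / p ^ 7 * m := by
  have hq0 : 0 < q := lt_of_lt_of_le (by positivity) hpq
  rw [one_div, inv_mul_eq_div, le_div_iff₀ (by positivity)]
  have : q ^ 2 * p ^ 7 ≤ m := by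
    have b1 : p ≤ q := (Nat.le_self_pow (by norm_num) p).trans hpq
    calc q ^ 2 * p ^ 7 = q ^ 2 * p ^ 6 * p := by ring
      _ ≤ q ^ 2 * q * q := by gcongr
      _ = q ^ 4 := by ring
      _ ≤ q ^ 7 := Nat.pow_le_pow_right hq0 (by norm_num)
      _ ≤ M := m3
      _ ≤ q * M := Nat.le_mul_of_pos_left _ hq0
      _ ≤ 2 * (q * M) := by omega
      _ ≤ Y * (2 * (q * M)) := Nat.le_mul_of_pos_left _ hY
      _ ≤ m := hm1.le
  exact_mod_cast this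

lemma aux_log {p n N K : ℕ} (hn16 : 16 ≤ n) (hN : N ≤ n) (hn2 : n ≤ (2 * p) ^ K)
    (hlog : 1 + 3 * K * Real.log (2 * p) ≤ p) : Hn (4 * (2 * N) ^ 2) ≤ p := by
  have a1 : 4 * (2 * N) ^ 2 ≤ n ^ 3 := by
    calc 4 * (2 * N) ^ 2 = 16 * N ^ 2 := by ring
      _ ≤ n * n ^ 2 := by gcongr
      _ = _ := by ring
  refine (Hn_mono a1).trans ((Hn_le _).trans (le_trans ?_ hlog))
  have a2 : (n : ℝ) ≤ (2 * p) ^ K := by exact_mod_cast hn2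
  have a3 := Real.log_le_log (by exact_mod_cast (show 0 < n by omega)) a2
  rw [Real.log_pow] at a3
  rw [Nat.cast_pow, Real.log_pow]
  push_cast at a3 ⊢
  linarith

lemma aux_h2 {p q M n : ℕ} (hp : 0 < p) (m1 : KK * n ^ 2 * p * q ≤ p ^ 7 * (q * M) ^ 3) :
    (KK : ℝ) * n ^ 2 * (1 / p ^ 7) * p * q ≤ ((q : ℝ) * M) ^ 3 := by
  have b1 : (KK : ℝ) * n ^ 2 * p * q ≤ p ^ 7 * (q * M) ^ 3 := by exact_mod_cast m1
  have e : (KK : ℝ) * n ^ 2 * (1 / p ^ 7) * p * q = KK * n ^ 2 * p * q / p ^ 7 := by ring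
  rw [e, div_le_iff₀ (by positivity)]
  linarith

theorem vectors : ∃ K : ℕ, 0 < K ∧ ∃ p0 : ℕ, ∀ p : ℕ, p.Prime → p0 ≤ p →
    1 + 3 * K * Real.log (2 * p) ≤ p → ∀ n : ℕ, p ^ K ≤ n → n ≤ (2 * p) ^ K →
    ∃ N : ℕ, 0 < N ∧ ∃ A : Finset (Fin 3 → ℤ), A.card = n ∧ (∀ v ∈ A, Shape N v) ∧
      (∀ v ∈ A, ∀ w ∈ A, v ≠ w → cr v w ≠ 0) ∧
      ∀ u ∈ A, ∀ v ∈ A, ∀ w ∈ A, u ≠ v → u ≠ w → v ≠ w →
        (p : ℝ) / n ^ 2 * (16 * N ^ 3) ≤ |((det3 u v w : ℤ) : ℝ)| := by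
  obtain ⟨R, hR⟩ := labels
  obtain ⟨u, hu⟩ : ∃ u, u = 2 * 2 ^ R + 3 := ⟨_, rfl⟩
  obtain ⟨E, hE⟩ : ∃ E, E = 20 * (3 * u + 5) + 2 * u + 2 := ⟨_, rfl⟩
  have hK : 1 ≤ KK := by unfold KK; norm_num
  refine ⟨12 * (4 * E + 1), by positivity, 256 * KK + 24 * (R ^ 3 + 3) + 200,
    fun p hp hp0 hlog n hn1 hn2 => ?_⟩
  have hp1 : 1 ≤ p := by omega
  obtain ⟨d, hd, hd'⟩ := hR p hp (by omega)
  obtain ⟨q, hq, hq1, hq2⟩ := Nat.exists_prime_lt_and_le_two_mul ((p ^ 4) ^ E) (by positivity)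
  obtain ⟨Y, hY⟩ : ∃ Y, Y = (p ^ 4) ^ (7 * (3 * u + 5) + u) := ⟨_, rfl⟩
  have hX2 : 2 ≤ p ^ 4 := le_trans (by omega) (Nat.le_self_pow (by norm_num) p)
  have hY0 : 0 < Y := by rw [hY]; positivity
  have hYq : 2 * Y ^ 2 < q := by
    refine lt_of_le_of_lt ?_ hq1
    calc 2 * Y ^ 2 ≤ p ^ 4 * Y ^ 2 := by gcongr
      _ = (p ^ 4) ^ (44 * u + 71) := by rw [hY]; ring
      _ ≤ _ := Nat.pow_le_pow_right (by omega) (by omega)
  have hpq : p ^ 6 ≤ q := by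
    refine le_trans ?_ hq1.le
    rw [← pow_mul]
    exact Nat.pow_le_pow_right hp1 (by omega)
  have hq5 : 512 ^ 2 ≤ q := le_trans (by norm_num) ((Nat.pow_le_pow_left (show 200 ≤ p by omega)
    6).trans hpq)
  have hqn : q ^ 12 ≤ n := by
    refine le_trans ?_ hn1
    rw [mul_comm 12, pow_mul]
    apply Nat.pow_le_pow_left
    calc q ≤ 2 * (p ^ 4) ^ E := hq2
      _ ≤ p * (p ^ 4) ^ E := by gcongr; omega
      _ = _ := by ring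
  obtain ⟨M, m1, m2, m3, m4, m5⟩ := choose_M (Y := Y) (show 8 * KK ≤ p by omega) hK hpq hq5 hqn
    (by omega)
  have hq0 : 0 < q := hq.pos
  have hM0 : 0 < M := lt_of_lt_of_le (by positivity) m3
  have hN0 : 0 < q * M := Nat.mul_pos hq0 hM0
  have hn16 : 16 ≤ n := le_trans (by omega) ((Nat.le_self_pow (by norm_num) q).trans hqn)
  obtain ⟨m, hm, hm1, hm2⟩ := Nat.exists_prime_lt_and_le_two_mul (Y * (2 * (q * M)))
    (by positivity)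
  have hℓ : Hn (4 * (2 * (q * M)) ^ 2) ≤ p := aux_log hn16 m4 hn2 hlog
  have hYN : Y ≤ q * M := by
    have := Nat.le_self_pow (n := 2) (by norm_num) Y
    have := Nat.le_mul_of_pos_right q hM0
    omega
  obtain ⟨Sg, _, _, s, hs, s1, s2, s3⟩ := structured hu (show 24 * (R ^ 3 + 3) ≤ p by omega)
    (show 200 ≤ p by omega) (by rwa [← hE]) (by rwa [← hE]) d hd hd' Y hY
    (le_trans (Hn_mono (by gcongr; omega)) hℓ)
  have : Fact q.Prime := ⟨hq⟩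
  have : Fact m.Prime := ⟨hm⟩
  have hpR : (0 : ℝ) < p := by exact_mod_cast hp.pos
  have hXZ : (2 : ℤ) ≤ (p : ℤ) ^ 4 := by exact_mod_cast hX2
  have hqZ : (0 : ℤ) < q := by exact_mod_cast hq0
  obtain ⟨A, a1, a2, a3, a4⟩ := core (q := q) (m := m) (by
      have := Nat.le_mul_of_pos_left (2 * (q * M)) hY0
      omega) s (M := M) ((q : ℤ) / (2 * p ^ 4)) hs hm1 (by positivity) (aux_T hqZ hXZ) hYq
    (1 / p ^ 7) p (by positivity) s1 (aux_pi hp.pos hpq m3 hY0 hm1) s2 s3 hℓ n (by omega)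
    ((Nat.mul_le_mul_left _ hm2).trans m5) (aux_h2 hp.pos m1)
  exact ⟨q * M, hN0, A, a1, a2, a3, fun u hu v hv w hw h1 h2 h3 =>
    final_num (by omega) hK (by omega) m2 (a4 u hu v hv w hw h1 h2 h3)⟩

lemma choose_p (K : ℕ) (hK : 0 < K) (p0 : ℕ) : ∃ n0 : ℕ, ∀ n, n0 ≤ n →
    ∃ p : ℕ, p.Prime ∧ p0 ≤ p ∧ p ^ K ≤ n ∧ n ≤ (2 * p) ^ K := by
  classical
  refine ⟨(2 * p0 + 2) ^ K, fun n hn => ?_⟩
  have hex : ∃ y, n < (y + 1) ^ K :=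
    ⟨n, lt_of_lt_of_le (Nat.lt_succ_self n) (Nat.le_self_pow hK.ne' _)⟩
  have h1 := Nat.find_spec hex
  set y := Nat.find hex with hy
  have h2 : 2 * p0 + 2 ≤ y := by
    have := (Nat.pow_lt_pow_iff_left hK.ne').1 (hn.trans_lt h1)
    omega
  have h3 : y ^ K ≤ n := by
    have := Nat.find_min hex (m := y - 1) (by omega)
    rwa [show y - 1 + 1 = y by omega, not_lt] at this
  obtain ⟨p, hp, hp1, hp2⟩ := Nat.exists_prime_lt_and_le_two_mul (y / 2) (by omega)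
  exact ⟨p, hp, by omega, (Nat.pow_le_pow_left (by omega) K).trans h3,
    h1.le.trans (Nat.pow_le_pow_left (by omega) K)⟩

lemma log_small (K : ℕ) : ∃ p0 : ℕ, ∀ p : ℕ, p0 ≤ p → 1 + 3 * K * Real.log (2 * p) ≤ p := by
  refine ⟨72 * K ^ 2 + 12 * K + 2, fun p hp => ?_⟩
  have hp' : (72 * K ^ 2 + 12 * K + 2 : ℝ) ≤ p := by exact_mod_cast hp
  have hK : (0 : ℝ) ≤ K := by positivity
  have hp0 : (0 : ℝ) < 2 * p := by nlinarith
  set s := Real.sqrt (2 * p) with hs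
  have hs0 : 0 < s := Real.sqrt_pos.2 hp0
  have hs2 : s ^ 2 = 2 * p := Real.sq_sqrt hp0.le
  have h1 : Real.log (2 * p) ≤ 2 * (s - 1) := by
    rw [← hs2, Real.log_pow]
    have := Real.log_le_sub_one_of_pos hs0
    push_cast; linarith
  have h2 : 12 * K + 1 ≤ s := by
    apply Real.le_sqrt_of_sq_le
    nlinarith
  have h3 := mul_le_mul_of_nonneg_left h1 (show 0 ≤ 3 * (K : ℝ) by positivity)
  nlinarith

theorem planar : ∃ η : ℝ, 0 < η ∧ ∃ n0 : ℕ, ∀ n : ℕ, n0 ≤ n → ∃ P : Finset (ℝ × ℝ), P.card = n ∧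
    (∀ x ∈ P, x.1 ∈ Set.Icc (0 : ℝ) 1 ∧ x.2 ∈ Set.Icc (0 : ℝ) 1) ∧
    ∀ x ∈ P, ∀ y ∈ P, ∀ z ∈ P, x ≠ y → x ≠ z → y ≠ z → (n : ℝ) ^ (-2 + η) ≤
      |(y.1 - x.1) * (z.2 - x.2) - (y.2 - x.2) * (z.1 - x.1)| / 2 := by
  classical
  obtain ⟨K, hK, p0, h⟩ := vectors
  obtain ⟨p1, hp1⟩ := log_small K
  obtain ⟨n0, hn0⟩ := choose_p K hK (p0 + p1 + 4)
  have hKR : (0 : ℝ) < K := by exact_mod_cast hK
  refine ⟨1 / (2 * K), by positivity, n0, fun n hn => ?_⟩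
  obtain ⟨p, hp, hp2, hp3, hp4⟩ := hn0 n hn
  obtain ⟨N, hN, A, a1, a2, a3, a4⟩ := h p hp (by omega) (hp1 p (by omega)) n hp3 hp4
  have hn0 : 0 < n := lt_of_lt_of_le (pow_pos hp.pos K) hp3
  have hnR : (0 : ℝ) < n := by exact_mod_cast hn0
  have hNR : (0 : ℝ) < N := by exact_mod_cast hN
  have hpow : (n : ℝ) ^ (-2 + 1 / (2 * (K : ℝ))) ≤ p / n ^ 2 := by
    rw [Real.rpow_add hnR, Real.rpow_neg hnR.le, mul_comm, div_eq_mul_inv (p : ℝ)]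
    have e : (n : ℝ) ^ (2 : ℝ) = n ^ 2 := by exact_mod_cast Real.rpow_natCast (n : ℝ) 2
    rw [e]
    refine mul_le_mul_of_nonneg_right ?_ (by positivity)
    have b1 : n ≤ p ^ (2 * K) := by
      rw [pow_mul]
      exact hp4.trans (Nat.pow_le_pow_left (by nlinarith) K)
    have b2 : (n : ℝ) ≤ (p : ℝ) ^ (2 * K) := by exact_mod_cast b1
    have b3 := Real.rpow_le_rpow hnR.le b2 (show (0 : ℝ) ≤ 1 / (2 * K) by positivity)
    refine b3.trans (le_of_eq ?_)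
    rw [← Real.rpow_natCast, ← Real.rpow_mul (by positivity)]
    push_cast
    rw [mul_one_div_cancel (by positivity), Real.rpow_one]
  have hsh : ∀ v ∈ A, (N : ℝ) ≤ v 0 ∧ (v 0 : ℝ) ≤ 2 * N ∧ (0 : ℝ) ≤ v 1 ∧ (v 1 : ℝ) ≤ N ∧
      (0 : ℝ) ≤ v 2 ∧ (v 2 : ℝ) ≤ N := fun v hv => by
    obtain ⟨b1, b2, b3, b4, b5, b6⟩ := a2 v hv
    exact ⟨by exact_mod_cast b1, by exact_mod_cast b2, by exact_mod_cast b3, by exact_mod_cast b4,
      by exact_mod_cast b5, by exact_mod_cast b6⟩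
  refine ⟨A.image fun v => ((v 1 : ℝ) / v 0, (v 2 : ℝ) / v 0), ?_, ?_, ?_⟩
  · rw [card_image_of_injOn, a1]
    intro v hv w hw e
    by_contra hne
    apply a3 v hv w hw hne
    have v0 : (0 : ℝ) < v 0 := hNR.trans_le (hsh v hv).1
    have w0 : (0 : ℝ) < w 0 := hNR.trans_le (hsh w hw).1
    simp only [Prod.mk.injEq] at e
    obtain ⟨e1, e2⟩ := e
    rw [div_eq_div_iff v0.ne' w0.ne'] at e1 e2
    have e1' : v 1 * w 0 = w 1 * v 0 := by exact_mod_cast e1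
    have e2' : v 2 * w 0 = w 2 * v 0 := by exact_mod_cast e2
    have w0' : w 0 ≠ 0 := by exact_mod_cast w0.ne'
    apply vec_ext
    · apply mul_left_cancel₀ w0'
      simp only [cr0, Pi.zero_apply]
      linear_combination w 2 * e1' - w 1 * e2'
    · simp only [cr1, Pi.zero_apply]
      linear_combination e2'
    · simp only [cr2, Pi.zero_apply]
      linear_combination -e1'
  · intro x hx
    obtain ⟨v, hv, rfl⟩ := mem_image.1 hx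
    obtain ⟨b1, b2, b3, b4, b5, b6⟩ := hsh v hv
    have v0 : (0 : ℝ) < v 0 := hNR.trans_le b1
    exact ⟨⟨by positivity, (div_le_one v0).2 (by linarith)⟩,
      ⟨by positivity, (div_le_one v0).2 (by linarith)⟩⟩
  · intro x hx y hy z hz h1 h2 h3
    obtain ⟨u, hu, rfl⟩ := mem_image.1 hx
    obtain ⟨v, hv, rfl⟩ := mem_image.1 hy
    obtain ⟨w, hw, rfl⟩ := mem_image.1 hz
    have b := a4 u hu v hv w hw (fun e => h1 (by rw [e])) (fun e => h2 (by rw [e]))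
      (fun e => h3 (by rw [e]))
    have u0 : (0 : ℝ) < u 0 := hNR.trans_le (hsh u hu).1
    have v0 : (0 : ℝ) < v 0 := hNR.trans_le (hsh v hv).1
    have w0 : (0 : ℝ) < w 0 := hNR.trans_le (hsh w hw).1
    have e : ((v 1 : ℝ) / v 0 - u 1 / u 0) * ((w 2 : ℝ) / w 0 - u 2 / u 0)
        - ((v 2 : ℝ) / v 0 - u 2 / u 0) * ((w 1 : ℝ) / w 0 - u 1 / u 0)
        = ((det3 u v w : ℤ) : ℝ) / (u 0 * v 0 * w 0) := by
      rw [det3_eq]; push_cast; field_simp; ring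
    simp only
    rw [e, abs_div, abs_of_pos (show (0 : ℝ) < u 0 * v 0 * w 0 by positivity), div_div]
    refine hpow.trans ?_
    rw [le_div_iff₀ (by positivity)]
    refine le_trans (mul_le_mul_of_nonneg_left ?_ (by positivity)) b
    calc (u 0 : ℝ) * v 0 * w 0 * 2 ≤ (2 * N) * (2 * N) * (2 * N) * 2 := by
          gcongr
          · exact (hsh u hu).2.1
          · exact (hsh v hv).2.1
          · exact (hsh w hw).2.1
      _ = _ := by ring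

end Vale.Agent.P036
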