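import Vale.Agent.P036.Struct
import Vale.Agent.P036.Labels

namespace Vale.Agent.P036

open Finset Vale.Agent.P047

lemma exists_M (Λ c : ℕ) (hc : 0 < c) (h : c < Λ) : ∃ M, Λ ≤ c * M ^ 3 ∧ c * M ^ 3 ≤ 8 * Λ := by
  classical
  have hex : ∃ M, Λ ≤ c * M ^ 3 :=
    ⟨Λ, (Nat.le_self_pow (by norm_num) Λ).trans (Nat.le_mul_of_pos_left _ hc)⟩
  have h1 := Nat.find_spec hex
  obtain ⟨k, hk⟩ : ∃ k, Nat.find hex = k + 1 := by
    apply Nat.exists_eq_succ_of_ne_zero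
    intro e
    rw [e] at h1
    simp at h1
    omega
  have h2 : ¬ Λ ≤ c * k ^ 3 := Nat.find_min hex (by omega)
  have hk1 : 1 ≤ k := by
    by_contra h0
    have : k = 0 := by omega
    rw [hk, this] at h1
    simp at h1
    omega
  refine ⟨_, h1, ?_⟩
  rw [hk]
  have h3 : (k + 1) ^ 3 ≤ (2 * k) ^ 3 := Nat.pow_le_pow_left (by omega) 3
  have h4 := Nat.mul_le_mul_left c h3
  have e : c * (2 * k) ^ 3 = 8 * (c * k ^ 3) := by ring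
  omega

lemma choose_M {p q n Y : ℕ} (hp : 8 * KK ≤ p) (hK : 1 ≤ KK) (hpq : p ^ 6 ≤ q) (hq : 512 ^ 2 ≤ q)
    (hn : q ^ 12 ≤ n) (hY : Y ^ 2 ≤ q) :
    ∃ M, KK * n ^ 2 * p * q ≤ p ^ 7 * (q * M) ^ 3 ∧ p ^ 7 * (q * M) ^ 3 ≤ 8 * (KK * n ^ 2 * p * q)
      ∧ q ^ 7 ≤ M ∧ q * M ≤ n ∧ 128 * n * (2 * (Y * (2 * (q * M)))) ≤ M ^ 3 := by
  have hp0 : 0 < p := by omega
  have hq0 : 1 < q := by omega
  have hc : p ^ 7 * q ^ 3 ≤ p * q ^ 4 := by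
    calc p ^ 7 * q ^ 3 = p * p ^ 6 * q ^ 3 := by ring
      _ ≤ p * q * q ^ 3 := by gcongr
      _ = p * q ^ 4 := by ring
  have hΛ : n ^ 2 * p * q ≤ KK * n ^ 2 * p * q := by
    calc n ^ 2 * p * q = 1 * n ^ 2 * p * q := by ring
      _ ≤ _ := by gcongr
  have hΛ2 : p * q ^ 4 * q ^ 21 ≤ n ^ 2 * p * q := by
    calc p * q ^ 4 * q ^ 21 = (q ^ 12) ^ 2 * p * q := by ring
      _ ≤ _ := by gcongr
  obtain ⟨M, h1, h2⟩ := exists_M (KK * n ^ 2 * p * q) (p ^ 7 * q ^ 3) (by positivity) (by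
    have : 1 < q ^ 21 := Nat.one_lt_pow (by norm_num) hq0
    have h0 : 0 < p * q ^ 4 := by positivity
    nlinarith)
  have h3 : p ^ 7 * q ^ 3 * M ^ 3 ≤ p * q ^ 4 * M ^ 3 := Nat.mul_le_mul_right _ hc
  have hM : q ^ 7 ≤ M := by
    have : q ^ 21 ≤ M ^ 3 :=
      Nat.le_of_mul_le_mul_left (hΛ2.trans (hΛ.trans (h1.trans h3))) (by positivity)
    exact (Nat.pow_le_pow_iff_left (n := 3) (by norm_num)).1 (by rw [← pow_mul]; exact this)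
  have hn2 : n ^ 2 ≤ q ^ 3 * M ^ 3 := by
    refine Nat.le_of_mul_le_mul_left (c := p * q) ?_ (by positivity)
    have := hΛ.trans (h1.trans h3)
    calc p * q * n ^ 2 = n ^ 2 * p * q := by ring
      _ ≤ p * q ^ 4 * M ^ 3 := this
      _ = _ := by ring
  have hqn : q ≤ n := (Nat.le_self_pow (by norm_num) q).trans hn
  refine ⟨M, by rw [mul_pow, ← mul_assoc]; exact h1, by rw [mul_pow, ← mul_assoc]; exact h2, hM,
    ?_, ?_⟩
  · apply (Nat.pow_le_pow_iff_left (n := 3) (by norm_num)).1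
    refine Nat.le_of_mul_le_mul_left (c := p ^ 7) ?_ (by positivity)
    calc p ^ 7 * (q * M) ^ 3 = p ^ 7 * q ^ 3 * M ^ 3 := by ring
      _ ≤ 8 * (KK * n ^ 2 * p * q) := h2
      _ = 8 * KK * p * n ^ 2 * q := by ring
      _ ≤ p * p * n ^ 2 * n := by gcongr
      _ = p ^ 2 * n ^ 3 := by ring
      _ ≤ p ^ 7 * n ^ 3 := Nat.mul_le_mul_right _ (Nat.pow_le_pow_right hp0 (by norm_num))
  · have a1 : 512 * n * Y * q ≤ M ^ 2 := by
      apply (Nat.pow_le_pow_iff_left (n := 2) (by norm_num)).1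
      calc (512 * n * Y * q) ^ 2 = 512 ^ 2 * n ^ 2 * Y ^ 2 * q ^ 2 := by ring
        _ ≤ q * (q ^ 3 * M ^ 3) * q * q ^ 2 := by gcongr
        _ = q ^ 7 * M ^ 3 := by ring
        _ ≤ M * M ^ 3 := by gcongr
        _ = _ := by ring
    calc 128 * n * (2 * (Y * (2 * (q * M)))) = 512 * n * Y * q * M := by ring
      _ ≤ M ^ 2 * M := by gcongr
      _ = _ := by ring

lemma num_R1 {L F G Y q Sm : ℝ} (hL : 0 < L) (hF : 0 < F) (hG : 0 < G) (hY : 0 < Y) (hq : 0 < q)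
    (h : 3 * Y * q * L ≤ G ^ 4) (hS : Sm ≤ L * (F * (G * G)) * (L * F) ^ 2) :
    Sm * q ^ 2 ≤ 1 / L * (L * (F * (G * G))) ^ 3 * (q / (3 * Y)) := by
  refine (mul_le_mul_of_nonneg_right hS (by positivity)).trans ?_
  have e1 : L * (F * (G * G)) * (L * F) ^ 2 * q ^ 2
      = L ^ 2 * F ^ 3 * G ^ 2 * q / (3 * Y) * (3 * Y * q * L) := by field_simp
  have e2 : 1 / L * (L * (F * (G * G))) ^ 3 * (q / (3 * Y))
      = L ^ 2 * F ^ 3 * G ^ 2 * q / (3 * Y) * G ^ 4 := by field_simp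
  rw [e1, e2]
  exact mul_le_mul_of_nonneg_left h (by positivity)

lemma num_R2 {L F G Y q Sm W H : ℝ} (hL : 0 < L) (hF : 0 < F) (hG : 0 < G) (hY : 0 < Y)
    (hq : 0 < q) (h : 68024448 * L * W * Y ^ 8 * H ≤ F ^ 3 * G ^ 6)
    (hS : Sm ≤ L ^ 3 * (3 * (W * ((18 * Y ^ 2) ^ 3 * (432 * H))))) :
    Sm * q ^ 2 ≤ 1 / L * (L * (F * (G * G))) ^ 3 * (q / (3 * Y)) ^ 2 := by
  refine (mul_le_mul_of_nonneg_right hS (by positivity)).trans ?_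
  have e1 : L ^ 3 * (3 * (W * ((18 * Y ^ 2) ^ 3 * (432 * H)))) * q ^ 2
      = L ^ 2 * q ^ 2 / (9 * Y ^ 2) * (68024448 * L * W * Y ^ 8 * H) := by field_simp; ring
  have e2 : 1 / L * (L * (F * (G * G))) ^ 3 * (q / (3 * Y)) ^ 2
      = L ^ 2 * q ^ 2 / (9 * Y ^ 2) * (F ^ 3 * G ^ 6) := by field_simp; ring
  rw [e1, e2]
  exact mul_le_mul_of_nonneg_left h (by positivity)

lemma num_X1 {X q L u : ℕ} (hX : 6 ≤ X) (hL : L ≤ X ^ 2)
    (hq : q ≤ 2 * X ^ (20 * (3 * u + 5) + 2 * u + 2)) :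
    3 * X ^ (7 * (3 * u + 5) + u) * q * L ≤ (X ^ (7 * (3 * u + 5))) ^ 4 := by
  calc 3 * X ^ (7 * (3 * u + 5) + u) * q * L
      ≤ 3 * X ^ (7 * (3 * u + 5) + u) * (2 * X ^ (20 * (3 * u + 5) + 2 * u + 2)) * X ^ 2 := by gcongr
    _ = 6 * X ^ (84 * u + 139) := by ring
    _ ≤ X * X ^ (84 * u + 139) := by gcongr
    _ = _ := by ring

lemma num_X2 {X q L u : ℕ} {H : ℝ} (hX : 10 ^ 9 ≤ X) (hL : L ≤ X ^ 2) (hH : H ≤ X) (hH0 : 0 ≤ H)
    (hq : X ^ (20 * (3 * u + 5) + 2 * u + 2) < q) :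
    68024448 * (L : ℝ) * (12 * ((X ^ (7 * (3 * u + 5) + u) : ℕ) : ℝ) ^ 3 / q + 1)
      * ((X ^ (7 * (3 * u + 5) + u) : ℕ) : ℝ) ^ 8 * H ≤
      ((X ^ (6 * (3 * u + 5)) : ℕ) : ℝ) ^ 3 * ((X ^ (7 * (3 * u + 5)) : ℕ) : ℝ) ^ 6 := by
  have hXR : (10 : ℝ) ^ 9 ≤ X := by exact_mod_cast hX
  have hX1 : (1 : ℝ) ≤ X := le_trans (by norm_num) hXR
  have hLR : (L : ℝ) ≤ X ^ 2 := by exact_mod_cast hL
  have hqR : (X : ℝ) ^ (20 * (3 * u + 5) + 2 * u + 2) < q := by exact_mod_cast hq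
  have hq0 : (0 : ℝ) < q := lt_trans (by positivity) hqR
  push_cast
  have a1 : 12 * ((X : ℝ) ^ (7 * (3 * u + 5) + u)) ^ 3 / q ≤ 12 * X ^ (4 * u + 5) := by
    rw [div_le_iff₀ hq0, mul_assoc]
    refine mul_le_mul_of_nonneg_left ?_ (by norm_num)
    calc ((X : ℝ) ^ (7 * (3 * u + 5) + u)) ^ 3 = X ^ (66 * u + 105) := by ring
      _ ≤ X ^ (66 * u + 107) := pow_le_pow_right₀ hX1 (by omega)
      _ = X ^ (4 * u + 5) * X ^ (20 * (3 * u + 5) + 2 * u + 2) := by ring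
      _ ≤ _ := by gcongr
  have a2 : (1 : ℝ) ≤ X ^ (4 * u + 5) := one_le_pow₀ hX1
  calc _ ≤ 68024448 * (X : ℝ) ^ 2 * (13 * X ^ (4 * u + 5))
        * ((X : ℝ) ^ (7 * (3 * u + 5) + u)) ^ 8 * X := by gcongr; linarith
    _ = 884317824 * (X : ℝ) ^ (180 * u + 288) := by ring
    _ ≤ X * (X : ℝ) ^ (180 * u + 288) := by gcongr; linarith
    _ = (X : ℝ) ^ (180 * u + 289) := by ring
    _ ≤ (X : ℝ) ^ (180 * u + 300) := pow_le_pow_right₀ hX1 (by omega)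
    _ = _ := by ring

/-- free parts of the structured vectors -/
def fr {F G : ℕ} (z : Fin F × Fin G × Fin G) : Fin 3 → ℤ :=
  ![(z.1 : ℕ) + 1, (z.2.1 : ℕ), (z.2.2 : ℕ)]

lemma fr_free {F G : ℕ} (z : Fin F × Fin G × Fin G) : Free F G (fr z) ∧ 0 < fr z 0 := by
  have h0 := z.1.2
  have h1 := z.2.1.2
  have h2 := z.2.2.2
  simp only [Free, fr, Matrix.cons_val_zero, Matrix.cons_val_one, Matrix.cons_val]
  omega

lemma fr_inj {F G : ℕ} {z z' : Fin F × Fin G × Fin G} (h : fr z = fr z') : z = z' := by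
  have h0 := congrFun h 0
  have h1 := congrFun h 1
  have h2 := congrFun h 2
  simp only [fr, Matrix.cons_val_zero, Matrix.cons_val_one, Matrix.cons_val] at h0 h1 h2
  exact Prod.ext (Fin.ext (by omega)) (Prod.ext (Fin.ext (by omega)) (Fin.ext (by omega)))

lemma structured {R p q u : ℕ} (hu : u = 2 * 2 ^ R + 3) (hp : 24 * (R ^ 3 + 3) ≤ p)
    (hp2 : 200 ≤ p) (hq1 : (p ^ 4) ^ (20 * (3 * u + 5) + 2 * u + 2) < q)
    (hq2 : q ≤ 2 * (p ^ 4) ^ (20 * (3 * u + 5) + 2 * u + 2))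
    (d : Fin R → Fin (p ^ 7) → Fin 3 → ℤ) (hd : ∀ r a l, 0 ≤ d r a l ∧ d r a l < p)
    (hd' : ∀ a b c, a ≠ b → a ≠ c → b ≠ c → ¬ (p : ℤ) ∣ ∑ r, det3 (d r a) (d r b) (d r c))
    (Y : ℕ) (hY : Y = (p ^ 4) ^ (7 * (3 * u + 5) + u)) (hH : Hn (4 * Y ^ 2) ≤ p) :
    ∃ (Sg : Type) (_ : Fintype Sg) (_ : Nonempty Sg) (s : Sg → Fin 3 → ℤ), (∀ σ, SOK Y (s σ)) ∧
      ∑ x : Sg × Sg × Sg, ind (NG q (q / (2 * p ^ 4)) (s x.1) (s x.2.1) (s x.2.2))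
        ≤ 3 * (1 / p ^ 7) * (Fintype.card Sg : ℝ) ^ 3 ∧
      (∑ x : Sg × Sg × Sg, ind (R2 q (s x.1) (s x.2.1) (s x.2.2))) * (q : ℝ) ^ 2
        ≤ (1 / p ^ 7) * (Fintype.card Sg : ℝ) ^ 3 * ((q : ℝ) / (3 * Y)) ^ 2 ∧
      (∑ x : Sg × Sg × Sg, ind (R1 (s x.1) (s x.2.1) (s x.2.2))) * (q : ℝ) ^ 2
        ≤ (1 / p ^ 7) * (Fintype.card Sg : ℝ) ^ 3 * ((q : ℝ) / (3 * Y)) := by
  have hp0 : 0 < p := by omega
  have hX : 24 * ((R * p) ^ 3 + 3) ≤ p ^ 4 := by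
    have : 1 ≤ p ^ 3 := Nat.one_le_pow _ _ hp0
    calc 24 * ((R * p) ^ 3 + 3) ≤ 24 * (R ^ 3 + 3) * p ^ 3 := by rw [mul_pow]; nlinarith
      _ ≤ p * p ^ 3 := by gcongr
      _ = _ := by ring
  have hX9 : 10 ^ 9 ≤ p ^ 4 := le_trans (by norm_num) (Nat.pow_le_pow_left hp2 4)
  have hL : p ^ 7 ≤ (p ^ 4) ^ 2 := by
    rw [← pow_mul]; exact Nat.pow_le_pow_right hp0 (by norm_num)
  have hpX : p ≤ p ^ 4 := Nat.le_self_pow (by norm_num) p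
  have hpd : p ∣ p ^ 4 := dvd_pow_self p (by norm_num)
  generalize hXdef : p ^ 4 = X at *
  have e : 6 * (3 * u + 5) + 2 * (7 * (3 * u + 5)) + 4 * 2 ^ R + 8
      = 20 * (3 * u + 5) + 2 * u + 2 := by omega
  obtain ⟨c, c0, c1, c2⟩ := digits (α := 6 * (3 * u + 5)) (β := 7 * (3 * u + 5)) (q := q) hX hpd
    (by rwa [e]) (by rwa [e]) d hd
  rw [← hu] at c1
  have hX1 : (1 : ℤ) ≤ X := by exact_mod_cast (show 1 ≤ X by omega)
  have hq0 : 0 < q := by omega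
  set F := X ^ (6 * (3 * u + 5)) with hF
  set G := X ^ (7 * (3 * u + 5)) with hG
  have hF0 : 0 < F := by rw [hF]; exact pow_pos (by omega) _
  have hG0 : 0 < G := by rw [hG]; exact pow_pos (by omega) _
  have hY0 : 0 < Y := by rw [hY]; exact pow_pos (by omega) _
  have hL0 : 0 < p ^ 7 := by positivity
  have : Nonempty (Fin (p ^ 7)) := ⟨⟨0, hL0⟩⟩
  have hfree : ∀ z : Fin F × Fin G × Fin G,
      Free ((X : ℤ) ^ (6 * (3 * u + 5))) ((X : ℤ) ^ (7 * (3 * u + 5))) (fr z) := fun z => by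
    have := (fr_free z).1
    rwa [show (F : ℤ) = (X : ℤ) ^ (6 * (3 * u + 5)) by rw [hF]; push_cast; rfl,
      show (G : ℤ) = (X : ℤ) ^ (7 * (3 * u + 5)) by rw [hG]; push_cast; rfl] at this
  have hs : ∀ σ : Fin (p ^ 7) × Fin F × Fin G × Fin G, SOK Y (c σ.1 + fr σ.2) := by
    intro σ
    obtain ⟨f0, f1, f2, f3, f4, f5⟩ := hfree σ.2
    obtain ⟨g0, g1, g2⟩ := c1 σ.1
    have hYZ : (Y : ℤ) = (X : ℤ) ^ (7 * (3 * u + 5) + u) := by rw [hY]; push_cast; rfl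
    have : (X : ℤ) ^ (6 * (3 * u + 5) + u) ≤ (X : ℤ) ^ (7 * (3 * u + 5) + u) :=
      pow_le_pow_right₀ hX1 (by omega)
    refine ⟨fun l => ?_, add_pos_of_nonneg_of_pos (c0 _ _) (fr_free σ.2).2⟩
    rw [hYZ]
    fin_cases l
    · exact ⟨add_nonneg (c0 _ _) f0, by simp only [Fin.zero_eta, Pi.add_apply]; linarith⟩
    · exact ⟨add_nonneg (c0 _ _) f2, by simp only [Fin.mk_one, Pi.add_apply]; linarith⟩
    · exact ⟨add_nonneg (c0 _ _) f4, by simp only [Fin.reduceFinMk, Pi.add_apply]; linarith⟩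
  have hinj : ∀ (a : Fin (p ^ 7)) (z z' : Fin F × Fin G × Fin G),
      c a + fr z = c a + fr z' → z = z' := fun a z z' h => fr_inj (add_left_cancel h)
  have hcard : (Fintype.card (Fin (p ^ 7) × Fin F × Fin G × Fin G) : ℝ)
      = (p : ℝ) ^ 7 * (F * (G * G)) := by simp
  refine ⟨Fin (p ^ 7) × Fin F × Fin G × Fin G, inferInstance,
    ⟨⟨⟨0, hL0⟩, ⟨0, hF0⟩, ⟨0, hG0⟩, ⟨0, hG0⟩⟩⟩, fun σ => c σ.1 + fr σ.2, hs, ?_, ?_, ?_⟩
  · have := count_NG (L := Fin (p ^ 7)) (Z := Fin F × Fin G × Fin G)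
      (fun x y z => NG q (q / (2 * p ^ 4)) (c x.1 + fr x.2) (c y.1 + fr y.2) (c z.1 + fr z.2)) ?_
    · simpa using this
    rintro x y z ⟨t, ht, htd⟩
    by_contra hn
    push Not at hn
    have a1 := c2 _ _ _ _ _ _ (hfree x.2) (hfree y.2) (hfree z.2)
      (hd' _ _ _ hn.1 hn.2.1 hn.2.2) t htd
    have hXZ : (p : ℤ) ^ 4 = X := by exact_mod_cast hXdef
    rw [hXZ] at ht
    have a2 : (q : ℤ) / (2 * X) * (2 * X) ≤ q := Int.ediv_mul_le _ (by omega)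
    nlinarith
  · rw [hcard]
    have h2 := count_R2 (L := Fin (p ^ 7)) (Z := Fin F × Fin G × Fin G)
      (fun σ => c σ.1 + fr σ.2) Y q hq0 (fun σ => (hs σ).1) hinj
    have h3 := num_X2 (L := p ^ 7) hX9 hL (hH.trans (by exact_mod_cast hpX)) (Hn_nonneg _) hq1
    rw [← hY, ← hF, ← hG] at h3
    simp only [Fintype.card_fin] at h2
    push_cast at h2 h3
    exact num_R2 (by positivity) (by positivity) (by positivity) (by positivity) (by positivity)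
      h3 h2
  · rw [hcard]
    have h2 := count_R1 (L := Fin (p ^ 7)) (Z := Fin F × Fin G × Fin G)
      (fun σ => c σ.1 + fr σ.2) (fun σ => (hs σ).2.ne') (fun z => z.1)
      (fun a z z' h => by simp [fr, h]) hinj
    have h3 := num_X1 (L := p ^ 7) (by omega) hL hq2
    rw [← hY, ← hG] at h3
    rw [hcard] at h2
    simp only [Fintype.card_fin] at h2
    push_cast at h2
    exact num_R1 (by positivity) (by positivity) (by positivity) (by positivity) (by positivity)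
      (by exact_mod_cast h3) h2

end Vale.Agent.P036
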