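import Vale.Agent.P036.Vec

namespace Vale.Agent.P036

open Finset

lemma ediv_ne_of_abs_sub {a b h : ℤ} (hh : 0 < h) (hab : h ≤ |a - b|) : a / h ≠ b / h := by
  intro e
  have h1 := Int.emod_add_mul_ediv a h
  have h2 := Int.emod_add_mul_ediv b h
  have h3 := Int.emod_nonneg a hh.ne'
  have h4 := Int.emod_nonneg b hh.ne'
  have h5 := Int.emod_lt_of_pos a hh
  have h6 := Int.emod_lt_of_pos b hh
  rw [e] at h1
  have : |a - b| < h := by
    rw [abs_lt]; constructor <;> linarith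
  linarith

/-- counting points of a plane lattice coset in a box -/
lemma plane_count {k : Fin 3 → ℤ} (hk : Prim k) (D : ℕ) (hD : 0 < D) (Λ : (Fin 3 → ℤ) → Prop)
    (h1 : ∀ z, Λ z → dot z k = 0)
    (h2 : ∀ z z', Λ z → Λ z' → ∀ l, (D : ℤ) ∣ cr z z' l)
    (r : ℕ) {u u' : Fin 3 → ℤ} (hu : Λ u) (hu' : Λ u') (hur : hgt u ≤ r) (hur' : hgt u' ≤ r)
    (huu : cr u u' ≠ 0)
    (A : Finset (Fin 3 → ℤ)) (hA : ∀ a ∈ A, ∀ a' ∈ A, Λ (a - a') ∧ hgt (a - a') ≤ r) :
    (A.card : ℝ) ≤ 18 * r ^ 2 / (D * hgt k) := by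
  classical
  obtain ⟨b, hb⟩ := hk
  have hk0 : 0 < hgt k := hgt_pos (Prim.ne_zero ⟨b, hb⟩)
  have hu0 : u ≠ 0 := by
    rintro rfl
    apply huu
    apply vec_ext <;> simp
  have hex : ∃ n, ∃ z, Λ z ∧ z ≠ 0 ∧ hgt z = n := ⟨_, u, hu, hu0, rfl⟩
  obtain ⟨e, heΛ, he0, hen⟩ := Nat.find_spec hex
  have hmin : ∀ z, Λ z → z ≠ 0 → hgt e ≤ hgt z := fun z hz hz0 => by
    rw [hen]; exact Nat.find_min' hex ⟨z, hz, hz0, rfl⟩
  have her : hgt e ≤ r := (hmin u hu hu0).trans hur
  have hh : 0 < hgt e := hgt_pos he0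
  set φ : (Fin 3 → ℤ) → ℤ := fun z => dot b (cr z e) / D with hφ
  have hφ1 : ∀ z, Λ z → cr z e = ((D : ℤ) * φ z) • k := by
    intro z hz
    have hd : (D : ℤ) ∣ dot b (cr z e) := by
      unfold dot
      exact dvd_add (dvd_add (Dvd.dvd.mul_left (h2 z e hz heΛ 0) _)
        (Dvd.dvd.mul_left (h2 z e hz heΛ 1) _)) (Dvd.dvd.mul_left (h2 z e hz heΛ 2) _)
    rw [hφ]
    simp only
    rw [Int.mul_ediv_cancel' hd]
    exact cr_eq_smul hb (h1 z hz) (h1 e heΛ)
  have hφ2 : ∀ z, Λ z → hgt z ≤ r → |φ z| * (D * hgt k) ≤ 2 * r * hgt e := by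
    intro z hz hzr
    have a1 := hgt_smul_ge ((D : ℤ) * φ z) k
    rw [← hφ1 z hz, abs_mul, abs_of_nonneg (by positivity : (0 : ℤ) ≤ D)] at a1
    have a2 := hgt_cr_le z e
    have a3 : (hgt z : ℤ) ≤ r := by exact_mod_cast hzr
    have a4 : (0 : ℤ) ≤ hgt e := by positivity
    nlinarith
  set K : ℤ := D * hgt k with hK
  have hKpos : 0 < K := by positivity
  set h : ℤ := ((hgt e : ℕ) : ℤ) with hhdef
  have hhpos : 0 < h := by rw [hhdef]; exact_mod_cast hh
  have hhr : h ≤ r := by rw [hhdef]; exact_mod_cast her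
  have hK2 : K ≤ 2 * r * h := by
    have aux : ∀ z, Λ z → hgt z ≤ r → cr z e ≠ 0 → K ≤ 2 * r * h := by
      intro z hz hzr hc
      have a1 := hφ2 z hz hzr
      have a2 : φ z ≠ 0 := by
        intro h0
        apply hc
        rw [hφ1 z hz, h0]; simp
      have a3 : 1 ≤ |φ z| := Int.one_le_abs a2
      nlinarith
    by_cases hc : cr u e = 0
    · by_cases hc' : cr u' e = 0
      · exact absurd (cr_trans_zero he0 hc hc') huu
      · exact aux u' hu' hur' hc'
    · exact aux u hu hur hc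
  set J : ℤ := 2 * r * h / K with hJ
  have hJ1 : 1 ≤ J := by
    rw [hJ]; exact Int.le_ediv_of_mul_le hKpos (by linarith)
  have hJ2 : J * K ≤ 2 * r * h := Int.ediv_mul_le _ hKpos.ne'
  set I : ℤ := 2 * r / h with hI
  have hI0 : 0 ≤ I := by rw [hI]; positivity
  have hI2 : I * h ≤ 2 * r := Int.ediv_mul_le _ hhpos.ne'
  obtain ⟨l, hl⟩ := exists_abs_eq_hgt e
  have hcard : (A.card : ℤ) ≤ (2 * J + 1) * (I + 1) := by
    rcases A.eq_empty_or_nonempty with rfl | ⟨a0, ha0⟩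
    · simp; positivity
    have := card_le_card_of_injOn (s := A) (t := Icc (-J) J ×ˢ Icc 0 I)
      (fun a => (φ (a - a0), (a l - a0 l + r) / h)) ?_ ?_
    · rw [card_product, Int.card_Icc, Int.card_Icc] at this
      have e1 : ((J + 1 - -J).toNat : ℤ) = 2 * J + 1 := by
        rw [Int.toNat_of_nonneg (by linarith)]; ring
      have e2 : ((I + 1 - 0).toNat : ℤ) = I + 1 := by
        rw [Int.toNat_of_nonneg (by linarith)]; ring
      rw [← e1, ← e2]
      exact_mod_cast this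
    · intro a ha
      obtain ⟨hΛ, hr⟩ := hA a ha a0 ha0
      have a1 := hφ2 _ hΛ hr
      have a2 : |φ (a - a0)| ≤ J := Int.le_ediv_of_mul_le hKpos a1
      have a3 := abs_le_hgt (a - a0) l
      have a4 : (hgt (a - a0) : ℤ) ≤ r := by exact_mod_cast hr
      have a5 := abs_le.1 (a3.trans a4)
      simp only [Pi.sub_apply] at a5
      simp only [coe_product, coe_Icc, Set.mem_prod, Set.mem_Icc]
      refine ⟨abs_le.1 a2, Int.ediv_nonneg (by linarith) hhpos.le, ?_⟩
      exact Int.ediv_le_ediv hhpos (by linarith)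
    · intro a ha a' ha' hee
      simp only [Prod.mk.injEq] at hee
      obtain ⟨e1, e2⟩ := hee
      by_contra hne
      obtain ⟨hΛ, -⟩ := hA a ha a' ha'
      have hd0 : a - a' ≠ 0 := sub_ne_zero.2 hne
      have hc : cr (a - a') e = 0 := by
        have : a - a' = (a - a0) - (a' - a0) := by abel
        rw [this, cr_sub_left, hφ1 _ (hA a ha a0 ha0).1, hφ1 _ (hA a' ha' a0 ha0).1, e1, sub_self]
      have hm : h ≤ hgt (a - a') := by rw [hhdef]; exact_mod_cast hmin _ hΛ hd0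
      obtain ⟨i, hi⟩ := exists_abs_eq_hgt (a - a')
      have hc' := (cr_eq_zero_iff _ _).1 hc i l
      have a1 : |(a - a') i| * h = |(a - a') l| * |e i| := by
        rw [hhdef, ← hl, ← abs_mul, ← abs_mul, hc']
      have a2 : |e i| ≤ h := abs_le_hgt e i
      have a3 : h ≤ |(a - a') l| := by
        have a4 : 0 ≤ |(a - a') l| := abs_nonneg _
        have : |(a - a') i| * h ≤ |(a - a') l| * h := by
          rw [a1]; exact mul_le_mul_of_nonneg_left a2 a4
        have := le_of_mul_le_mul_right this hhpos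
        linarith
      refine ediv_ne_of_abs_sub hhpos ?_ e2
      have : a l - a0 l + r - (a' l - a0 l + r) = (a - a') l := by simp
      rw [this]; exact a3
  have hfin : (A.card : ℤ) * K ≤ 18 * r ^ 2 := by
    have a1 : (A.card : ℤ) * K * h ≤ 18 * r ^ 2 * h := by
      have b1 : (2 * J + 1) * K ≤ 6 * r * h := by nlinarith
      have b2 : (I + 1) * h ≤ 3 * r := by nlinarith
      have b3 : (A.card : ℤ) * (K * h) ≤ (2 * J + 1) * (I + 1) * (K * h) :=
        mul_le_mul_of_nonneg_right hcard (by positivity)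
      have b4 : ((2 * J + 1) * K) * ((I + 1) * h) ≤ (6 * r * h) * (3 * r) :=
        mul_le_mul b1 b2 (by positivity) (by positivity)
      nlinarith
    exact le_of_mul_le_mul_right a1 hhpos
  have hKR : (0 : ℝ) < D * hgt k := by positivity
  rw [le_div_iff₀ hKR]
  rw [hK] at hfin
  exact_mod_cast hfin

/-- harmonic number as a real -/
noncomputable def Hn (n : ℕ) : ℝ := ∑ m ∈ Icc 1 n, (1 : ℝ) / m

lemma Hn_nonneg (n : ℕ) : 0 ≤ Hn n := sum_nonneg fun _ _ => by positivity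

lemma Hn_mono {a b : ℕ} (h : a ≤ b) : Hn a ≤ Hn b :=
  sum_le_sum_of_subset_of_nonneg (Icc_subset_Icc_right h) fun _ _ _ => by positivity

lemma Hn_le (n : ℕ) : Hn n ≤ 1 + Real.log n := by
  have := harmonic_le_one_add_log n
  rw [harmonic_eq_sum_Icc] at this
  push_cast at this
  simpa [Hn] using this

lemma inv_cube_le (h : ℕ) (hh : 0 < h) :
    (1 : ℝ) / (h : ℝ) ^ 3 ≤ 16 * ∑ m ∈ Icc h (2 * h), (1 : ℝ) / (m : ℝ) ^ 4 := by
  have hR : (0 : ℝ) < h := by exact_mod_cast hh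
  have a1 : ∑ _m ∈ Icc h (2 * h), (1 : ℝ) / (2 * h : ℝ) ^ 4
      ≤ ∑ m ∈ Icc h (2 * h), (1 : ℝ) / (m : ℝ) ^ 4 := by
    apply sum_le_sum
    intro m hm
    rw [mem_Icc] at hm
    have b1 : (0 : ℝ) < m := by exact_mod_cast hh.trans_le hm.1
    have b2 : (m : ℝ) ≤ 2 * h := by exact_mod_cast hm.2
    exact one_div_le_one_div_of_le (by positivity) (pow_le_pow_left₀ b1.le b2 4)
  rw [sum_const, Nat.card_Icc, nsmul_eq_mul] at a1
  have e : ((2 * h + 1 - h : ℕ) : ℝ) = h + 1 := by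
    rw [show 2 * h + 1 - h = h + 1 by omega]; push_cast; ring
  rw [e] at a1
  have a2 : (1 : ℝ) / (h : ℝ) ^ 3 ≤ 16 * ((h + 1) * (1 / (2 * h : ℝ) ^ 4)) := by
    rw [show (16 : ℝ) * ((h + 1) * (1 / (2 * h : ℝ) ^ 4)) = 1 / (h : ℝ) ^ 3 + 1 / (h : ℝ) ^ 4 by
      field_simp; ring]
    have : (0 : ℝ) ≤ 1 / (h : ℝ) ^ 4 := by positivity
    linarith
  linarith

/-- layer cake bound for the sum of inverse cubes of heights -/
lemma layer_cake (A : Finset (Fin 3 → ℤ)) (H0 β : ℝ) (hβ : 0 ≤ β) (H1 : ℕ)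
    (hA : ∀ k ∈ A, k ≠ 0 ∧ H0 ≤ hgt k ∧ hgt k ≤ H1)
    (hc : ∀ m : ℕ, 0 < m → H0 ≤ m → ((A.filter fun k => hgt k ≤ m).card : ℝ) ≤ β * m ^ 3) :
    ∑ k ∈ A, (1 : ℝ) / (hgt k : ℝ) ^ 3 ≤ 16 * β * Hn (2 * H1) := by
  classical
  have a1 : ∀ k ∈ A, (1 : ℝ) / (hgt k : ℝ) ^ 3 ≤ 16 * ∑ m ∈ Icc 1 (2 * H1),
      if hgt k ≤ m then (1 : ℝ) / (m : ℝ) ^ 4 else 0 := by
    intro k hk
    obtain ⟨h0, -, h1⟩ := hA k hk
    have hp := hgt_pos h0
    refine (inv_cube_le _ hp).trans (mul_le_mul_of_nonneg_left ?_ (by norm_num))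
    rw [← sum_filter]
    apply sum_le_sum_of_subset_of_nonneg
    · intro m hm
      rw [mem_Icc] at hm
      simp only [mem_filter, mem_Icc]
      omega
    · intro _ _ _; positivity
  refine (sum_le_sum a1).trans ?_
  rw [← mul_sum, sum_comm, mul_assoc]
  refine mul_le_mul_of_nonneg_left ?_ (by norm_num)
  rw [Hn, mul_sum]
  refine sum_le_sum fun m hm => ?_
  rw [mem_Icc] at hm
  have hmR : (0 : ℝ) < m := by exact_mod_cast hm.1
  rw [← sum_filter, sum_const, nsmul_eq_mul]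
  by_cases hH : H0 ≤ m
  · have := hc m hm.1 hH
    calc _ ≤ β * m ^ 3 * (1 / (m : ℝ) ^ 4) := mul_le_mul_of_nonneg_right this (by positivity)
      _ = β * (1 / m) := by field_simp
  · have : (A.filter fun k => hgt k ≤ m) = ∅ := by
      apply filter_eq_empty_iff.2
      intro k hk hkm
      apply hH
      have : (hgt k : ℝ) ≤ m := by exact_mod_cast hkm
      linarith [(hA k hk).2.1]
    rw [this]
    simp only [card_empty, Nat.cast_zero, zero_mul]
    positivity

/-- counting vectors in a cube when some coordinates determine the others modulo `q` -/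
lemma box_count (A : Finset (Fin 3 → ℤ)) (m q : ℕ) (hq : 0 < q) (J : Fin 3 → Prop)
    [DecidablePred J] (hA : ∀ k ∈ A, hgt k ≤ m)
    (hJ : ∀ k ∈ A, ∀ k' ∈ A, (∀ j, J j → k j = k' j) → ∀ j, (q : ℤ) ∣ k j - k' j) :
    (A.card : ℝ) ≤ ∏ j, if J j then (2 * m + 1 : ℝ) else 2 * m / q + 1 := by
  classical
  have hqZ : (0 : ℤ) < q := by exact_mod_cast hq
  have := card_le_card_of_injOn (s := A)
    (t := Fintype.piFinset fun j => if J j then Icc (0 : ℤ) (2 * m) else Icc 0 (2 * m / q))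
    (fun k j => if J j then k j + m else (k j + m) / q) ?_ ?_
  · rw [Fintype.card_piFinset] at this
    have h2 : (A.card : ℝ) ≤ ∏ j, ((if J j then Icc (0 : ℤ) (2 * m)
        else Icc 0 (2 * m / q)).card : ℝ) := by exact_mod_cast this
    refine h2.trans (prod_le_prod (fun _ _ => by positivity) fun j _ => ?_)
    split_ifs
    · rw [Int.card_Icc]
      have : ((2 * (m : ℤ) + 1 - 0).toNat : ℤ) = 2 * m + 1 := by
        rw [Int.toNat_of_nonneg (by omega)]; ring
      have h3 : (((2 * (m : ℤ) + 1 - 0).toNat : ℤ) : ℝ) = 2 * m + 1 := by rw [this]; push_cast; ring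
      exact le_of_eq (by exact_mod_cast h3)
    · rw [Int.card_Icc]
      have h0 : (0 : ℤ) ≤ 2 * m / q := by positivity
      have : ((2 * (m : ℤ) / q + 1 - 0).toNat : ℤ) = 2 * m / q + 1 := by
        rw [Int.toNat_of_nonneg (by linarith)]; ring
      have h3 : (((2 * (m : ℤ) / q + 1 - 0).toNat : ℕ) : ℝ) = ((2 * (m : ℤ) / q : ℤ) : ℝ) + 1 := by
        exact_mod_cast this
      rw [h3]
      have h4 : (2 * (m : ℤ) / q) * q ≤ 2 * m := Int.ediv_mul_le _ hqZ.ne'
      have h5 : ((2 * (m : ℤ) / q : ℤ) : ℝ) * q ≤ 2 * m := by exact_mod_cast h4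
      have hqR : (0 : ℝ) < q := by exact_mod_cast hq
      have := (le_div_iff₀ hqR).2 h5
      linarith
  · intro k hk
    simp only [Fintype.coe_piFinset, Set.mem_pi, Set.mem_univ, forall_true_left, mem_coe]
    intro j
    have a1 := abs_le_hgt k j
    have a2 : (hgt k : ℤ) ≤ m := by exact_mod_cast hA k hk
    have a3 := abs_le.1 (a1.trans a2)
    split_ifs
    · rw [mem_Icc]; constructor <;> linarith
    · rw [mem_Icc]
      exact ⟨Int.ediv_nonneg (by linarith) hqZ.le, Int.ediv_le_ediv hqZ (by linarith)⟩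
  · intro k hk k' hk' he
    have h1 : ∀ j, J j → k j = k' j := fun j hj => by
      have := congrFun he j
      simp only [hj, if_true] at this
      linarith
    funext j
    by_cases hj : J j
    · exact h1 j hj
    · have a1 := congrFun he j
      simp only [hj, if_false] at a1
      by_contra hne
      have a2 := hJ k hk k' hk' h1 j
      have a3 : (q : ℤ) ≤ |k j - k' j| :=
        Int.le_of_dvd (abs_pos.2 (sub_ne_zero.2 hne)) ((dvd_abs _ _).2 a2)
      refine ediv_ne_of_abs_sub hqZ ?_ a1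
      rwa [add_sub_add_right_eq_sub]

end Vale.Agent.P036
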