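import Vale.Agent.P036.Vec
import Vale.Agent.P047.Cube

namespace Vale.Agent.P036

open Finset Vale.Agent.P047

open Classical in
/-- indicator of a proposition -/
noncomputable def ind (P : Prop) : ℝ := if P then 1 else 0

lemma ind_nonneg (P : Prop) : 0 ≤ ind P := by unfold ind; split_ifs <;> norm_num

lemma ind_le_one (P : Prop) : ind P ≤ 1 := by unfold ind; split_ifs <;> norm_num

lemma ind_pos {P : Prop} (h : P) : ind P = 1 := by simp [ind, h]

lemma ind_neg {P : Prop} (h : ¬ P) : ind P = 0 := by simp [ind, h]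

lemma ind_mono {P Q : Prop} (h : P → Q) : ind P ≤ ind Q := by
  by_cases hP : P
  · rw [ind_pos hP, ind_pos (h hP)]
  · rw [ind_neg hP]; exact ind_nonneg _

lemma ind_congr {P Q : Prop} (h : P ↔ Q) : ind P = ind Q := by rw [propext h]

lemma ind_and (P Q : Prop) : ind (P ∧ Q) = ind P * ind Q := by
  by_cases hP : P <;> by_cases hQ : Q <;> simp [ind, hP, hQ]

lemma ind_or_le {P Q R : Prop} (h : P → Q ∨ R) : ind P ≤ ind Q + ind R := by
  by_cases hP : P
  · rcases h hP with h | h
    · rw [ind_pos hP, ind_pos h]; linarith [ind_nonneg R]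
    · rw [ind_pos hP, ind_pos h]; linarith [ind_nonneg Q]
  · rw [ind_neg hP]; linarith [ind_nonneg Q, ind_nonneg R]

lemma sum_ind {α : Type*} (s : Finset α) (P : α → Prop) [DecidablePred P] :
    ∑ x ∈ s, ind (P x) = (s.filter P).card := by
  rw [card_filter]; push_cast
  refine sum_congr rfl fun x _ => ?_
  by_cases h : P x <;> simp [ind, h]

lemma E_ind {Ω : Type*} [Fintype Ω] (P : Ω → Prop) [DecidablePred P] :
    E (fun x => ind (P x)) = (univ.filter P).card / Fintype.card Ω := by
  rw [E, sum_ind]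

lemma E_ind_nonneg {Ω : Type*} [Fintype Ω] (P : Ω → Prop) : 0 ≤ E (fun x => ind (P x)) :=
  E_nonneg fun _ => ind_nonneg _

lemma E_hom {A B : Type*} [AddCommGroup A] [AddCommGroup B] [Fintype A] [Fintype B]
    (φ : A →+ B) (hφ : Function.Surjective φ) (f : B → ℝ) : E (fun a => f (φ a)) = E f := by
  choose σ hσ using hφ
  have h1 : ∀ b, E (fun a => f (φ a)) = E (fun a => f (φ a + b)) := fun b => by
    rw [← E_equiv (Equiv.addRight (σ b)) (fun a => f (φ a))]
    simp [hσ]
  have h2 : ∀ a, E (fun b => f (φ a + b)) = E f := fun a =>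
    E_equiv (Equiv.addLeft (φ a)) f
  calc E (fun a => f (φ a)) = E (fun _ : B => E (fun a => f (φ a))) := (E_const _).symm
    _ = E (fun b : B => E (fun a => f (φ a + b))) := E_congr h1
    _ = E (fun a => E (fun b => f (φ a + b))) := E_comm _
    _ = E (fun _ : A => E f) := E_congr h2
    _ = E f := E_const _

section Field

variable {F : Type*} [Field F] [Fintype F] [DecidableEq F]

omit [DecidableEq F] in
lemma card_pos_F : (0 : ℝ) < Fintype.card F := by exact_mod_cast Fintype.card_pos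

lemma hyper_prob {n : Fin 3 → F} (hn : n ≠ 0) (d : F) :
    E (fun y => ind (dot n y = d)) = 1 / Fintype.card F := by
  obtain ⟨l, hl⟩ := Function.ne_iff.1 hn
  let φ : (Fin 3 → F) →+ F :=
    { toFun := fun y => dot n y
      map_zero' := by simp [dot]
      map_add' := fun a b => by simp [dot]; ring }
  have hφ : Function.Surjective φ := fun t => by
    refine ⟨Pi.single l (t / n l), ?_⟩
    have hl' : n l ≠ 0 := hl
    change dot n (Pi.single l (t / n l)) = t
    fin_cases l <;> simp [dot] <;> simp at hl' <;> field_simp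
  have := E_hom φ hφ (fun t => ind (t = d))
  refine this.trans ?_
  rw [E_ind, filter_eq' univ d]
  simp

lemma hyper_card (n : Fin 3 → F) {d : F} (hd : d ≠ 0) :
    ((univ.filter fun y => dot n y = d).card : ℝ) ≤ (Fintype.card F : ℝ) ^ 2 := by
  by_cases hn : n = 0
  · have : (univ.filter fun y => dot n y = d) = ∅ := by
      apply filter_eq_empty_iff.2
      intro y _ h
      apply hd
      rw [← h, hn]; simp [dot]
    rw [this]; simp
  · have h := hyper_prob hn d
    rw [E_ind] at h
    have hq := card_pos_F (F := F)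
    simp only [Fintype.card_fun, Fintype.card_fin, Nat.cast_pow] at h
    rw [div_eq_div_iff (by positivity) hq.ne'] at h
    apply le_of_eq
    apply mul_right_cancel₀ hq.ne'
    rw [h]; ring

lemma par_prob {a : Fin 3 → F} (ha : a ≠ 0) :
    E (fun b => ind (cr a b = 0)) ≤ 1 / (Fintype.card F : ℝ) ^ 2 := by
  obtain ⟨l, hl⟩ := Function.ne_iff.1 ha
  have hl' : a l ≠ 0 := hl
  have hq := card_pos_F (F := F)
  have h : (univ.filter fun b => cr a b = 0).card ≤ (univ : Finset F).card := by
    apply card_le_card_of_injOn (fun b => b l) (fun _ _ => mem_univ _)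
    intro b hb b' hb' e
    simp only [coe_filter, mem_univ, true_and, Set.mem_ofPred_eq, cr_eq_zero_iff] at hb hb'
    funext j
    apply mul_left_cancel₀ hl'
    have e' : b l = b' l := e
    rw [hb l j, hb' l j, e']
  rw [E_ind]
  simp only [Fintype.card_fun, Fintype.card_fin, Nat.cast_pow]
  rw [div_le_div_iff₀ (by positivity) (by positivity)]
  have h' : ((univ.filter fun b => cr a b = 0).card : ℝ) ≤ Fintype.card F := by
    exact_mod_cast h
  nlinarith [pow_pos hq 2]

/-- matrices of determinant one, given by their columns -/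
abbrev SL3 (F : Type*) [Field F] := {g : (Fin 3 → F) × (Fin 3 → F) × (Fin 3 → F) //
  det3 g.1 g.2.1 g.2.2 = 1}

/-- the action on vectors -/
def act (g : SL3 F) (s : Fin 3 → F) : Fin 3 → F :=
  fun l => s 0 * g.1.1 l + s 1 * g.1.2.1 l + s 2 * g.1.2.2 l

omit [Fintype F] [DecidableEq F] in
lemma det3_act (g : SL3 F) (a b c : Fin 3 → F) :
    det3 (act g a) (act g b) (act g c) = det3 a b c := by
  have h := g.2
  simp only [det3_eq, act] at h ⊢
  linear_combination ((a 1 * b 2 - a 2 * b 1) * c 0 + (a 2 * b 0 - a 0 * b 2) * c 1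
      + (a 0 * b 1 - a 1 * b 0) * c 2) * h

omit [Fintype F] [DecidableEq F] in
lemma cramer_col {a b c s : Fin 3 → F} (hd : det3 a b c ≠ 0)
    (h : ∀ l, s 0 * a l + s 1 * b l + s 2 * c l = 0) : s = 0 := by
  have h0 := h 0
  have h1 := h 1
  have h2 := h 2
  apply vec_ext <;> apply mul_left_cancel₀ hd <;> simp only [det3_eq, Pi.zero_apply]
  · linear_combination (b 1 * c 2 - b 2 * c 1) * h0 + (b 2 * c 0 - b 0 * c 2) * h1
      + (b 0 * c 1 - b 1 * c 0) * h2
  · linear_combination (c 1 * a 2 - c 2 * a 1) * h0 + (c 2 * a 0 - c 0 * a 2) * h1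
      + (c 0 * a 1 - c 1 * a 0) * h2
  · linear_combination (a 1 * b 2 - a 2 * b 1) * h0 + (a 2 * b 0 - a 0 * b 2) * h1
      + (a 0 * b 1 - a 1 * b 0) * h2

omit [Fintype F] [DecidableEq F] in
lemma cramer_row {a b c s : Fin 3 → F} (hd : det3 a b c ≠ 0)
    (h0 : dot a s = 0) (h1 : dot b s = 0) (h2 : dot c s = 0) : s = 0 := by
  unfold dot at h0 h1 h2
  apply vec_ext <;> apply mul_left_cancel₀ hd <;> simp only [det3_eq, Pi.zero_apply]
  · linear_combination (b 1 * c 2 - b 2 * c 1) * h0 + (c 1 * a 2 - c 2 * a 1) * h1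
      + (a 1 * b 2 - a 2 * b 1) * h2
  · linear_combination (b 2 * c 0 - b 0 * c 2) * h0 + (c 2 * a 0 - c 0 * a 2) * h1
      + (a 2 * b 0 - a 0 * b 2) * h2
  · linear_combination (b 0 * c 1 - b 1 * c 0) * h0 + (c 0 * a 1 - c 1 * a 0) * h1
      + (a 0 * b 1 - a 1 * b 0) * h2

omit [Fintype F] [DecidableEq F] in
lemma act_eq_zero (g : SL3 F) {s : Fin 3 → F} (h : act g s = 0) : s = 0 :=
  cramer_col (by rw [g.2]; exact one_ne_zero) fun l => congrFun h l

omit [Fintype F] [DecidableEq F] in
lemma act_inj {a b c : Fin 3 → F} (hd : det3 a b c ≠ 0) {g g' : SL3 F}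
    (ha : act g a = act g' a) (hb : act g b = act g' b) (hc : act g c = act g' c) : g = g' := by
  have key : ∀ l, (![g.1.1 l - g'.1.1 l, g.1.2.1 l - g'.1.2.1 l, g.1.2.2 l - g'.1.2.2 l] :
      Fin 3 → F) = 0 := fun l => by
    have h0 := congrFun ha l
    have h1 := congrFun hb l
    have h2 := congrFun hc l
    simp only [act] at h0 h1 h2
    apply cramer_row hd
    · simp only [dot, Matrix.cons_val_zero, Matrix.cons_val_one, Matrix.cons_val]
      linear_combination h0
    · simp only [dot, Matrix.cons_val_zero, Matrix.cons_val_one, Matrix.cons_val]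
      linear_combination h1
    · simp only [dot, Matrix.cons_val_zero, Matrix.cons_val_one, Matrix.cons_val]
      linear_combination h2
  apply Subtype.ext
  refine Prod.ext ?_ (Prod.ext ?_ ?_)
  · funext l; exact sub_eq_zero.1 (congrFun (key l) 0)
  · funext l; exact sub_eq_zero.1 (congrFun (key l) 1)
  · funext l; exact sub_eq_zero.1 (congrFun (key l) 2)

lemma card_SL3 : (Fintype.card F : ℝ) ^ 8 / 2 ≤ Fintype.card (SL3 F) := by
  have hq := card_pos_F (F := F)
  have hq2 : (2 : ℝ) ≤ Fintype.card F := by exact_mod_cast Fintype.one_lt_card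
  set q : ℝ := ((Fintype.card F : ℕ) : ℝ) with hqdef
  have h1 : E (fun g : (Fin 3 → F) × (Fin 3 → F) × (Fin 3 → F) =>
      ind (det3 g.1 g.2.1 g.2.2 = 1)) = Fintype.card (SL3 F) / q ^ 9 := by
    rw [E_ind, Fintype.card_subtype]
    congr 1
    simp only [Fintype.card_prod, Fintype.card_fun, Fintype.card_fin, hqdef]
    push_cast; ring
  have h2 : ∀ a b : Fin 3 → F, (1 - ind (cr a b = 0)) * (1 / q)
      ≤ E (fun c => ind (det3 a b c = 1)) := by
    intro a b
    by_cases h : cr a b = 0
    · rw [ind_pos h]; simpa using E_ind_nonneg _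
    · rw [ind_neg h, sub_zero, one_mul]
      exact (hyper_prob h 1).ge
  have h3 : ∀ a : Fin 3 → F, (1 - ind (a = 0) - 1 / q ^ 2) * (1 / q)
      ≤ E (fun b => E (fun c => ind (det3 a b c = 1))) := by
    intro a
    refine le_trans ?_ (E_mono (h2 a))
    rw [E_mulc, E_sub, E_const]
    refine mul_le_mul_of_nonneg_right ?_ (by positivity)
    by_cases h : a = 0
    · have : E (fun b => ind (cr a b = 0)) ≤ E (fun _ : Fin 3 → F => (1 : ℝ)) :=
        E_mono fun _ => ind_le_one _
      rw [E_const] at this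
      rw [ind_pos h]
      have : (0 : ℝ) ≤ 1 / q ^ 2 := by positivity
      linarith
    · have := par_prob h
      rw [ind_neg h]; linarith
  have h4 : E (fun a : Fin 3 → F => ind (a = 0)) = 1 / q ^ 3 := by
    rw [E_ind, filter_eq' univ (0 : Fin 3 → F)]
    simp [hqdef]
  have h5 := E_mono h3
  rw [E_mulc, E_sub, E_sub, E_const, E_const, h4] at h5
  have h6 : E (fun g : (Fin 3 → F) × (Fin 3 → F) × (Fin 3 → F) =>
      ind (det3 g.1 g.2.1 g.2.2 = 1)) = E (fun a : Fin 3 → F => E (fun b : Fin 3 → F =>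
        E (fun c => ind (det3 a b c = 1)))) := by
    rw [E_prod (fun (a : Fin 3 → F) (p : (Fin 3 → F) × (Fin 3 → F)) => ind (det3 a p.1 p.2 = 1))]
    exact E_congr fun a => E_prod (fun b c => ind (det3 a b c = 1))
  rw [← h6, h1, le_div_iff₀ (by positivity)] at h5
  refine le_trans ?_ h5
  have e : (1 - 1 / q ^ 3 - 1 / q ^ 2) * (1 / q) * q ^ 9 = q ^ 5 * (q ^ 3 - 1 - q) := by
    field_simp
  rw [e]
  have a1 : q ^ 3 / 2 ≤ q ^ 3 - 1 - q := by nlinarith [mul_le_mul hq2 hq2 (by norm_num) hq.le]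
  calc q ^ 8 / 2 = q ^ 5 * (q ^ 3 / 2) := by ring
    _ ≤ _ := mul_le_mul_of_nonneg_left a1 (by positivity)

lemma prob_le_of_card (P : SL3 F → Prop) [DecidablePred P] (k : ℕ) (hk : k ≤ 8)
    (h : ((univ.filter P).card : ℝ) ≤ (Fintype.card F : ℝ) ^ (8 - k)) :
    E (fun g => ind (P g)) ≤ 2 / (Fintype.card F : ℝ) ^ k := by
  have hq := card_pos_F (F := F)
  have hG := card_SL3 (F := F)
  have hG0 : (0 : ℝ) < Fintype.card (SL3 F) := lt_of_lt_of_le (by positivity) hG
  rw [E_ind, div_le_div_iff₀ hG0 (by positivity)]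
  have e : (Fintype.card F : ℝ) ^ (8 - k) * (Fintype.card F : ℝ) ^ k = (Fintype.card F : ℝ) ^ 8 := by
    rw [← pow_add]; congr 1; omega
  have := mul_le_mul_of_nonneg_right h (pow_pos hq k).le
  linarith

instance : Nonempty (SL3 F) :=
  ⟨⟨(![1, 0, 0], ![0, 1, 0], ![0, 0, 1]), by simp [det3_eq]⟩⟩

lemma prob3 {a b c : Fin 3 → F} (hd : det3 a b c ≠ 0) (x y z : Fin 3 → F) :
    E (fun g : SL3 F => ind (act g a = x ∧ act g b = y ∧ act g c = z))
      ≤ 2 / (Fintype.card F : ℝ) ^ 8 := by
  apply prob_le_of_card _ 8 le_rfl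
  have : (univ.filter fun g : SL3 F => act g a = x ∧ act g b = y ∧ act g c = z).card ≤ 1 := by
    apply card_le_one.2
    intro g hg g' hg'
    simp only [mem_filter, mem_univ, true_and] at hg hg'
    exact act_inj hd (hg.1.trans hg'.1.symm) (hg.2.1.trans hg'.2.1.symm)
      (hg.2.2.trans hg'.2.2.symm)
  simpa using this

lemma card2 {a b : Fin 3 → F} (hd : cr a b ≠ 0) (x y : Fin 3 → F) :
    ((univ.filter fun g : SL3 F => act g a = x ∧ act g b = y).card : ℝ)
      ≤ (Fintype.card F : ℝ) ^ 2 := by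
  obtain ⟨l, hl⟩ := Function.ne_iff.1 hd
  have hd' : det3 a b (Pi.single l 1) ≠ 0 := by
    have : det3 a b (Pi.single l 1) = cr a b l := by
      fin_cases l <;> simp [det3, dot]
    rw [this]; exact hl
  refine le_trans ?_ (hyper_card (cr x y) hd')
  have : (univ.filter fun g : SL3 F => act g a = x ∧ act g b = y).card ≤
      (univ.filter fun z => dot (cr x y) z = det3 a b (Pi.single l 1)).card := by
    apply card_le_card_of_injOn (fun g => act g (Pi.single l 1))
    · intro g hg
      simp only [coe_filter, mem_univ, true_and, Set.mem_ofPred_eq] at hg ⊢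
      rw [← det3_act g, hg.1, hg.2, det3]
    · intro g hg g' hg' e
      simp only [coe_filter, mem_univ, true_and, Set.mem_ofPred_eq] at hg hg'
      exact act_inj hd' (hg.1.trans hg'.1.symm) (hg.2.trans hg'.2.symm) e
  exact_mod_cast this

lemma prob2 {a b : Fin 3 → F} (hd : cr a b ≠ 0) (x y : Fin 3 → F) :
    E (fun g : SL3 F => ind (act g a = x ∧ act g b = y)) ≤ 2 / (Fintype.card F : ℝ) ^ 6 :=
  prob_le_of_card _ 6 (by norm_num) (card2 hd x y)

lemma prob1 {a : Fin 3 → F} (ha : a 0 ≠ 0) (x : Fin 3 → F) :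
    E (fun g : SL3 F => ind (act g a = x)) ≤ 2 / (Fintype.card F : ℝ) ^ 3 := by
  apply prob_le_of_card _ 3 (by norm_num)
  have hd : cr a ![0, 1, 0] ≠ 0 := fun h => ha (by simpa using congrFun h 2)
  rw [card_eq_sum_card_fiberwise (f := fun g : SL3 F => act g ![0, 1, 0]) (t := univ)
    (fun _ _ => mem_univ _)]
  push_cast
  have : ∀ y ∈ (univ : Finset (Fin 3 → F)), (((univ.filter fun g : SL3 F => act g a = x).filter
      fun g => act g ![0, 1, 0] = y).card : ℝ) ≤ (Fintype.card F : ℝ) ^ 2 := by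
    intro y _
    rw [filter_filter]
    exact card2 hd x y
  refine (sum_le_sum this).trans (le_of_eq ?_)
  simp; ring

end Field

end Vale.Agent.P036
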