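import Vale.Agent.P036.Core3
import Vale.Agent.P036.Digits

namespace Vale.Agent.P036

open Finset Vale.Agent.P047

lemma count_dvd {α : Type*} [Fintype α] (a b c : α → Fin 3 → ℤ) (Y q : ℕ) (hq : 0 < q)
    (hinj : ∀ x y, a x = a y → b x = b y → c x = c y → x = y)
    (hbox : ∀ x, InBox Y (a x) ∧ InBox Y (b x) ∧ InBox Y (c x)) :
    ∑ x, ind ((q : ℤ) ∣ det3 (a x) (b x) (c x) ∧ cr (a x) (b x) ≠ 0)
      ≤ (12 * Y ^ 3 / q + 1) * ((18 * Y ^ 2) ^ 3 * (432 * Hn (4 * Y ^ 2))) := by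
  classical
  have hqZ : (0 : ℤ) < q := by exact_mod_cast hq
  have hqR : (0 : ℝ) < q := by exact_mod_cast hq
  set J : ℤ := 6 * (Y : ℤ) ^ 3 / q with hJ
  have hJ0 : 0 ≤ J := by rw [hJ]; positivity
  have hJ1 : J * q ≤ 6 * (Y : ℤ) ^ 3 := Int.ediv_mul_le _ hqZ.ne'
  rw [sum_ind, card_eq_sum_card_fiberwise (f := fun x => det3 (a x) (b x) (c x) / q)
    (t := Icc (-J) J)]
  · push_cast
    have : ∀ j ∈ Icc (-J) J, (((univ.filter fun x => (q : ℤ) ∣ det3 (a x) (b x) (c x) ∧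
        cr (a x) (b x) ≠ 0).filter fun x => det3 (a x) (b x) (c x) / q = j).card : ℝ)
        ≤ (18 * Y ^ 2) ^ 3 * (432 * Hn (4 * Y ^ 2)) := by
      intro j _
      refine matrix_count _ a b c Y (q * j) (fun x _ y _ => hinj x y) (fun x _ => hbox x) ?_
      intro x hx
      obtain ⟨h1, h2⟩ := mem_filter.1 hx
      obtain ⟨-, h3, h4⟩ := mem_filter.1 h1
      exact ⟨h4, by rw [← h2, Int.mul_ediv_cancel' h3]⟩
    refine (sum_le_sum this).trans ?_
    rw [sum_const, nsmul_eq_mul, Int.card_Icc]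
    refine mul_le_mul_of_nonneg_right ?_ (by have := Hn_nonneg (4 * Y ^ 2); positivity)
    have e1 : ((J + 1 - -J).toNat : ℤ) = 2 * J + 1 := by
      rw [Int.toNat_of_nonneg (by linarith)]; ring
    have e2 : (((J + 1 - -J).toNat : ℕ) : ℝ) = 2 * J + 1 := by exact_mod_cast e1
    rw [e2]
    have h5 : (J : ℝ) * q ≤ 6 * (Y : ℝ) ^ 3 := by exact_mod_cast hJ1
    have : 2 * (J : ℝ) ≤ 12 * Y ^ 3 / q := by rw [le_div_iff₀ hqR]; linarith
    linarith
  · intro x hx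
    obtain ⟨-, ⟨j, hj⟩, -⟩ := mem_filter.1 (mem_coe.1 hx)
    simp only [mem_coe, mem_Icc]
    rw [hj, Int.mul_ediv_cancel_left _ hqZ.ne', ← abs_le]
    apply Int.le_ediv_of_mul_le hqZ
    have a1 := abs_dot_le (cr (a x) (b x)) (c x)
    have a2 : (hgt (cr (a x) (b x)) : ℤ) ≤ 2 * Y ^ 2 := by
      exact_mod_cast (hbox x).1.hgt_cr_le (hbox x).2.1
    have a3 : (hgt (c x) : ℤ) ≤ Y := by exact_mod_cast (hbox x).2.2.hgt_le
    have a4 : (hgt (cr (a x) (b x)) : ℤ) * hgt (c x) ≤ 2 * Y ^ 2 * Y :=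
      mul_le_mul a2 a3 (by positivity) (by positivity)
    have a5 : |det3 (a x) (b x) (c x)| = |j| * q := by
      rw [hj, abs_mul, abs_of_pos hqZ, mul_comm]
    rw [← a5, det3]
    linarith

variable {L Z : Type*} [Fintype L] [Fintype Z]

lemma count_NG (P : L × Z → L × Z → L × Z → Prop)
    (h : ∀ x y z, P x y z → x.1 = y.1 ∨ x.1 = z.1 ∨ y.1 = z.1) [Nonempty L] :
    ∑ p : (L × Z) × (L × Z) × (L × Z), ind (P p.1 p.2.1 p.2.2)
      ≤ 3 * (1 / Fintype.card L) * (Fintype.card (L × Z) : ℝ) ^ 3 := by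
  classical
  have hL : (0 : ℝ) < Fintype.card L := by exact_mod_cast Fintype.card_pos
  have h1 : ∀ p ∈ (univ : Finset ((L × Z) × (L × Z) × (L × Z))), ind (P p.1 p.2.1 p.2.2) ≤
      ind (p.1.1 = p.2.1.1) + (ind (p.1.1 = p.2.2.1) + ind (p.2.1.1 = p.2.2.1)) := fun p _ =>
    (ind_or_le (h _ _ _)).trans (add_le_add_right (ind_or_le id) _)
  refine (sum_le_sum h1).trans (le_of_eq ?_)
  have e : ∀ a : L, ∑ b : L, ind (a = b) = 1 := fun a => by
    rw [sum_ind, filter_eq univ a]; simp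
  have e' : ∀ a : L, ∑ y : L × Z, ind (a = y.1) = Fintype.card Z := fun a => by
    rw [Fintype.sum_prod_type, sum_comm]
    simp [e]
  simp only [sum_add_distrib, Fintype.sum_prod_type (f := fun p : (L × Z) × (L × Z) × (L × Z) =>
    ind (_ : Prop)), Fintype.sum_prod_type (f := fun p : (L × Z) × (L × Z) => ind (_ : Prop))]
  simp only [sum_const, card_univ, nsmul_eq_mul, ← mul_sum, e', Fintype.card_prod]
  push_cast
  field_simp
  ring

lemma count_R1 (s : L × Z → Fin 3 → ℤ) (hs : ∀ x, s x 0 ≠ 0) {W : Type*} [Fintype W]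
    (w : Z → W) (hw : ∀ a z z', w z = w z' → s (a, z) 0 = s (a, z') 0)
    (hinj : ∀ a z z', s (a, z) = s (a, z') → z = z') :
    ∑ p : (L × Z) × (L × Z) × (L × Z), ind (R1 (s p.1) (s p.2.1) (s p.2.2))
      ≤ Fintype.card (L × Z) * ((Fintype.card L : ℝ) * Fintype.card W) ^ 2 := by
  classical
  have h1 : ∀ x, ∑ y, ind (cr (s x) (s y) = 0) ≤ (Fintype.card L : ℝ) * Fintype.card W := by
    intro x
    rw [sum_ind]
    have := card_le_card_of_injOn (s := univ.filter fun y => cr (s x) (s y) = 0)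
      (t := (univ : Finset (L × W))) (fun y => (y.1, w y.2)) (fun _ _ => mem_univ _) ?_
    · simp only [card_univ, Fintype.card_prod] at this
      exact_mod_cast this
    · rintro ⟨a, z⟩ hy ⟨a', z'⟩ hy' e
      simp only [coe_filter, mem_univ, true_and, Set.mem_ofPred_eq, cr_eq_zero_iff] at hy hy'
      simp only [Prod.mk.injEq] at e
      obtain ⟨rfl, e⟩ := e
      congr 1
      apply hinj a
      funext j
      apply mul_left_cancel₀ (hs x)
      rw [hy 0 j, hy' 0 j, hw a z z' e]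
  rw [Fintype.sum_prod_type]
  have h2 : ∀ x ∈ (univ : Finset (L × Z)), ∑ p : (L × Z) × (L × Z), ind (R1 (s x) (s p.1) (s p.2))
      ≤ ((Fintype.card L : ℝ) * Fintype.card W) ^ 2 := by
    intro x _
    simp only [R1, ind_and]
    rw [Fintype.sum_prod_type]
    dsimp only
    rw [← sum_mul_sum, sq]
    exact mul_le_mul (h1 x) (h1 x) (sum_nonneg fun _ _ => ind_nonneg _) (by positivity)
  refine (sum_le_sum h2).trans (le_of_eq ?_)
  simp

lemma count_R2 (s : L × Z → Fin 3 → ℤ) (Y q : ℕ) (hq : 0 < q) (hs : ∀ x, InBox Y (s x))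
    (hinj : ∀ a z z', s (a, z) = s (a, z') → z = z') :
    ∑ p : (L × Z) × (L × Z) × (L × Z), ind (R2 q (s p.1) (s p.2.1) (s p.2.2))
      ≤ (Fintype.card L : ℝ) ^ 3 *
        (3 * ((12 * Y ^ 3 / q + 1) * ((18 * Y ^ 2) ^ 3 * (432 * Hn (4 * Y ^ 2))))) := by
  let e : (L × L × L) × (Z × Z × Z) ≃ (L × Z) × (L × Z) × (L × Z) :=
    { toFun := fun p => ((p.1.1, p.2.1), (p.1.2.1, p.2.2.1), (p.1.2.2, p.2.2.2))
      invFun := fun p => ((p.1.1, p.2.1.1, p.2.2.1), (p.1.2, p.2.1.2, p.2.2.2))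
      left_inv := fun _ => rfl
      right_inv := fun _ => rfl }
  rw [← Equiv.sum_comp e, Fintype.sum_prod_type]
  have b : ∀ a ∈ (univ : Finset (L × L × L)), ∑ z : Z × Z × Z,
      ind (R2 q (s (e (a, z)).1) (s (e (a, z)).2.1) (s (e (a, z)).2.2)) ≤
      3 * ((12 * Y ^ 3 / q + 1) * ((18 * Y ^ 2) ^ 3 * (432 * Hn (4 * Y ^ 2)))) := by
    intro a _
    have c1 := count_dvd (fun z : Z × Z × Z => s (a.1, z.1)) (fun z => s (a.2.1, z.2.1))
      (fun z => s (a.2.2, z.2.2)) Y q hq (fun x y e1 e2 e3 =>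
        Prod.ext (hinj _ _ _ e1) (Prod.ext (hinj _ _ _ e2) (hinj _ _ _ e3)))
      fun _ => ⟨hs _, hs _, hs _⟩
    have c2 := count_dvd (fun z : Z × Z × Z => s (a.2.2, z.2.2)) (fun z => s (a.1, z.1))
      (fun z => s (a.2.1, z.2.1)) Y q hq (fun x y e3 e1 e2 =>
        Prod.ext (hinj _ _ _ e1) (Prod.ext (hinj _ _ _ e2) (hinj _ _ _ e3)))
      fun _ => ⟨hs _, hs _, hs _⟩
    have c3 := count_dvd (fun z : Z × Z × Z => s (a.2.1, z.2.1)) (fun z => s (a.2.2, z.2.2))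
      (fun z => s (a.1, z.1)) Y q hq (fun x y e2 e3 e1 =>
        Prod.ext (hinj _ _ _ e1) (Prod.ext (hinj _ _ _ e2) (hinj _ _ _ e3)))
      fun _ => ⟨hs _, hs _, hs _⟩
    refine le_trans (sum_le_sum fun z _ => ?_) ((add_le_add c1 (add_le_add c2 c3)).trans'
      (le_of_eq (by rw [← sum_add_distrib, ← sum_add_distrib])) |>.trans (le_of_eq (by ring)))
    refine (ind_or_le ?_).trans (add_le_add_right (ind_or_le id) _)
    rintro ⟨h1, h2 | h2 | h2⟩
    · exact Or.inl ⟨h1, h2⟩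
    · exact Or.inr (Or.inl ⟨by rw [← det3_cyc]; exact h1, fun h => h2 (cr_comm_zero h)⟩)
    · exact Or.inr (Or.inr ⟨by rw [det3_cyc]; exact h1, h2⟩)
  refine (sum_le_sum b).trans (le_of_eq ?_)
  simp only [sum_const, card_univ, Fintype.card_prod, nsmul_eq_mul]
  push_cast
  ring

end Vale.Agent.P036
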