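import Mathlib

namespace Vale.Agent.P036

open Finset

section Ring

variable {R : Type*} [CommRing R]

/-- cross product -/
def cr (a b : Fin 3 → R) : Fin 3 → R :=
  ![a 1 * b 2 - a 2 * b 1, a 2 * b 0 - a 0 * b 2, a 0 * b 1 - a 1 * b 0]

/-- dot product -/
def dot (a b : Fin 3 → R) : R := a 0 * b 0 + a 1 * b 1 + a 2 * b 2

/-- determinant of three vectors -/
def det3 (a b c : Fin 3 → R) : R := dot (cr a b) c

@[simp] lemma cr0 (a b : Fin 3 → R) : cr a b 0 = a 1 * b 2 - a 2 * b 1 := rfl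
@[simp] lemma cr1 (a b : Fin 3 → R) : cr a b 1 = a 2 * b 0 - a 0 * b 2 := rfl
@[simp] lemma cr2 (a b : Fin 3 → R) : cr a b 2 = a 0 * b 1 - a 1 * b 0 := rfl

lemma det3_eq (a b c : Fin 3 → R) : det3 a b c =
    (a 1 * b 2 - a 2 * b 1) * c 0 + (a 2 * b 0 - a 0 * b 2) * c 1
      + (a 0 * b 1 - a 1 * b 0) * c 2 := rfl

lemma vec_ext {α : Type*} {a b : Fin 3 → α} (h0 : a 0 = b 0) (h1 : a 1 = b 1) (h2 : a 2 = b 2) :
    a = b := by
  funext i; fin_cases i
  · exact h0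
  · exact h1
  · exact h2

lemma cr_eq_zero_iff (a b : Fin 3 → R) : cr a b = 0 ↔ ∀ i j, a i * b j = a j * b i := by
  constructor
  · intro h i j
    have h0 : a 1 * b 2 - a 2 * b 1 = 0 := congrFun h 0
    have h1 : a 2 * b 0 - a 0 * b 2 = 0 := congrFun h 1
    have h2 : a 0 * b 1 - a 1 * b 0 = 0 := congrFun h 2
    fin_cases i <;> fin_cases j <;> simp <;>
      first
        | linear_combination h0
        | linear_combination -h0
        | linear_combination h1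
        | linear_combination -h1
        | linear_combination h2
        | linear_combination -h2
  · intro h
    apply vec_ext
    · simp [h 1 2]
    · simp [h 2 0]
    · simp [h 0 1]

lemma cr_self (a : Fin 3 → R) : cr a a = 0 := (cr_eq_zero_iff a a).2 fun _ _ => mul_comm _ _

lemma cr_comm_zero {a b : Fin 3 → R} (h : cr a b = 0) : cr b a = 0 := by
  rw [cr_eq_zero_iff] at h ⊢
  intro i j
  linear_combination h j i

lemma cr_sub_left (a b c : Fin 3 → R) : cr (a - b) c = cr a c - cr b c := by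
  apply vec_ext <;> simp <;> ring

lemma dot_sub_left (a b c : Fin 3 → R) : dot (a - b) c = dot a c - dot b c := by
  simp [dot]; ring

lemma dot_comm (a b : Fin 3 → R) : dot a b = dot b a := by
  simp [dot]; ring

lemma dot_smul_left (j : R) (a b : Fin 3 → R) : dot (j • a) b = j * dot a b := by
  simp [dot]; ring

lemma dot_cr_left (a b : Fin 3 → R) : dot a (cr a b) = 0 := by
  simp [dot]; ring

lemma dot_cr_right (a b : Fin 3 → R) : dot b (cr a b) = 0 := by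
  simp [dot]; ring

lemma det3_cyc (a b c : Fin 3 → R) : det3 b c a = det3 a b c := by
  simp [det3_eq]; ring

end Ring

/-- sup norm of an integer vector -/
def hgt (z : Fin 3 → ℤ) : ℕ := max (z 0).natAbs (max (z 1).natAbs (z 2).natAbs)

lemma natAbs_le_hgt (z : Fin 3 → ℤ) (i : Fin 3) : (z i).natAbs ≤ hgt z := by
  unfold hgt
  fin_cases i <;> simp

lemma abs_le_hgt (z : Fin 3 → ℤ) (i : Fin 3) : |z i| ≤ (hgt z : ℤ) := by
  have := natAbs_le_hgt z i
  rw [Int.abs_eq_natAbs]; exact_mod_cast this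

lemma exists_abs_eq_hgt (z : Fin 3 → ℤ) : ∃ l, |z l| = (hgt z : ℤ) := by
  unfold hgt
  rcases max_choice (z 0).natAbs (max (z 1).natAbs (z 2).natAbs) with h | h
  · exact ⟨0, by rw [h, Int.abs_eq_natAbs]⟩
  · rcases max_choice (z 1).natAbs (z 2).natAbs with h' | h'
    · exact ⟨1, by rw [h, h', Int.abs_eq_natAbs]⟩
    · exact ⟨2, by rw [h, h', Int.abs_eq_natAbs]⟩

lemma hgt_le {z : Fin 3 → ℤ} {r : ℤ} (h : ∀ i, |z i| ≤ r) : (hgt z : ℤ) ≤ r := by
  obtain ⟨l, hl⟩ := exists_abs_eq_hgt z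
  rw [← hl]; exact h l

lemma hgt_pos {z : Fin 3 → ℤ} (h : z ≠ 0) : 0 < hgt z := by
  by_contra h0
  apply h
  funext i
  have := abs_le_hgt z i
  have h1 : hgt z = 0 := by omega
  rw [h1] at this
  simpa using this

lemma abs_mul_sub_le {a b c d A B : ℤ} (ha : |a| ≤ A) (hb : |b| ≤ B) (hc : |c| ≤ A)
    (hd : |d| ≤ B) : |a * b - c * d| ≤ 2 * A * B := by
  have h1 : |a * b| ≤ A * B := by
    rw [abs_mul]; exact mul_le_mul ha hb (abs_nonneg _) ((abs_nonneg _).trans ha)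
  have h2 : |c * d| ≤ A * B := by
    rw [abs_mul]; exact mul_le_mul hc hd (abs_nonneg _) ((abs_nonneg _).trans hc)
  have := abs_sub (a * b) (c * d)
  linarith

lemma hgt_cr_le (a b : Fin 3 → ℤ) : (hgt (cr a b) : ℤ) ≤ 2 * hgt a * hgt b := by
  apply hgt_le
  intro i
  fin_cases i
  · exact abs_mul_sub_le (abs_le_hgt _ _) (abs_le_hgt _ _) (abs_le_hgt _ _) (abs_le_hgt _ _)
  · exact abs_mul_sub_le (abs_le_hgt _ _) (abs_le_hgt _ _) (abs_le_hgt _ _) (abs_le_hgt _ _)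
  · exact abs_mul_sub_le (abs_le_hgt _ _) (abs_le_hgt _ _) (abs_le_hgt _ _) (abs_le_hgt _ _)

lemma abs_dot_le (a b : Fin 3 → ℤ) : |dot a b| ≤ 3 * hgt a * hgt b := by
  have h : ∀ i, |a i * b i| ≤ hgt a * hgt b := fun i => by
    rw [abs_mul]
    exact mul_le_mul (abs_le_hgt _ _) (abs_le_hgt _ _) (abs_nonneg _) (by positivity)
  have h0 := h 0
  have h1 := h 1
  have h2 := h 2
  have := abs_add_three (a 0 * b 0) (a 1 * b 1) (a 2 * b 2)
  unfold dot
  linarith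

lemma hgt_smul_ge (j : ℤ) (k : Fin 3 → ℤ) : |j| * hgt k ≤ (hgt (j • k) : ℤ) := by
  obtain ⟨l, hl⟩ := exists_abs_eq_hgt k
  rw [← hl, ← abs_mul]
  exact abs_le_hgt (j • k) l

/-- primitive integer vectors -/
def Prim (k : Fin 3 → ℤ) : Prop := ∃ b, dot b k = 1

lemma Prim.ne_zero {k : Fin 3 → ℤ} (h : Prim k) : k ≠ 0 := by
  rintro rfl
  obtain ⟨b, hb⟩ := h
  simp [dot] at hb

lemma exists_prim {n : Fin 3 → ℤ} (hn : n ≠ 0) :
    ∃ (k : Fin 3 → ℤ) (c : ℤ), Prim k ∧ c ≠ 0 ∧ n = c • k ∧ hgt k ≤ hgt n := by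
  set d1 : ℤ := ((Int.gcd (n 1) (n 2) : ℕ) : ℤ) with hd1
  set d : ℤ := ((Int.gcd (n 0) d1 : ℕ) : ℤ) with hd
  have e1 : d1 = n 1 * Int.gcdA (n 1) (n 2) + n 2 * Int.gcdB (n 1) (n 2) := Int.gcd_eq_gcd_ab _ _
  have e : d = n 0 * Int.gcdA (n 0) d1 + d1 * Int.gcdB (n 0) d1 := Int.gcd_eq_gcd_ab _ _
  have h0 : d ∣ n 0 := Int.gcd_dvd_left _ _
  have hd' : d ∣ d1 := Int.gcd_dvd_right _ _
  have h1 : d ∣ n 1 := hd'.trans (Int.gcd_dvd_left _ _)
  have h2 : d ∣ n 2 := hd'.trans (Int.gcd_dvd_right _ _)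
  obtain ⟨k0, hk0⟩ := h0
  obtain ⟨k1, hk1⟩ := h1
  obtain ⟨k2, hk2⟩ := h2
  have hnk : n = d • ![k0, k1, k2] := by
    apply vec_ext
    · simpa using hk0
    · simpa using hk1
    · simpa using hk2
  have hd0 : d ≠ 0 := by
    intro h
    apply hn
    rw [hnk, h, zero_smul]
  refine ⟨![k0, k1, k2], d, ⟨![Int.gcdA (n 0) d1, Int.gcdA (n 1) (n 2) * Int.gcdB (n 0) d1,
    Int.gcdB (n 1) (n 2) * Int.gcdB (n 0) d1], ?_⟩, hd0, hnk, ?_⟩
  · apply mul_left_cancel₀ hd0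
    simp only [dot, Matrix.cons_val_zero, Matrix.cons_val_one, Matrix.cons_val]
    generalize Int.gcdA (n 0) d1 = A at *
    generalize Int.gcdB (n 0) d1 = B at *
    generalize Int.gcdA (n 1) (n 2) = A' at *
    generalize Int.gcdB (n 1) (n 2) = B' at *
    linear_combination -e - B * e1 - A * hk0 - A' * B * hk1 - B' * B * hk2
  · have h := hgt_smul_ge d ![k0, k1, k2]
    rw [← hnk] at h
    have h1 : 1 ≤ |d| := Int.one_le_abs hd0
    have h3 : (0 : ℤ) ≤ hgt ![k0, k1, k2] := by positivity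
    have : (hgt ![k0, k1, k2] : ℤ) ≤ hgt n := by nlinarith
    exact_mod_cast this

lemma cr_eq_smul {k b z z' : Fin 3 → ℤ} (hb : dot b k = 1) (hz : dot z k = 0)
    (hz' : dot z' k = 0) : cr z z' = dot b (cr z z') • k := by
  unfold dot at *
  apply vec_ext
  · simp only [cr0, cr1, cr2, Pi.smul_apply, smul_eq_mul]
    linear_combination (-(z 1 * z' 2 - z 2 * z' 1)) * hb - (b 2 * z' 1 - b 1 * z' 2) * hz
      - (b 1 * z 2 - b 2 * z 1) * hz'
  · simp only [cr0, cr1, cr2, Pi.smul_apply, smul_eq_mul]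
    linear_combination (-(z 2 * z' 0 - z 0 * z' 2)) * hb - (b 0 * z' 2 - b 2 * z' 0) * hz
      - (b 2 * z 0 - b 0 * z 2) * hz'
  · simp only [cr0, cr1, cr2, Pi.smul_apply, smul_eq_mul]
    linear_combination (-(z 0 * z' 1 - z 1 * z' 0)) * hb - (b 1 * z' 0 - b 0 * z' 1) * hz
      - (b 0 * z 1 - b 1 * z 0) * hz'

lemma cr_trans_zero {e z z' : Fin 3 → ℤ} (he : e ≠ 0) (h : cr z e = 0) (h' : cr z' e = 0) :
    cr z z' = 0 := by
  rw [cr_eq_zero_iff] at *
  obtain ⟨l, hl⟩ := Function.ne_iff.1 he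
  intro i j
  apply mul_left_cancel₀ hl
  linear_combination (z' j) * h i l + (z l) * h' j i - (z' i) * h j l

end Vale.Agent.P036
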